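import Vale.Agent.P197.Saxl.Defs
import Mathlib.Tactic.Linarith
import Mathlib.Tactic.Ring

/-!
# P197: a small top row forces many cells in the first columns
-/

namespace Vale.Agent.P197.Saxl

open Finset

namespace ColCountAux

variable {α : Type} [Fintype α] {r : ℕ} {row : α → Fin r} {col : α → ℕ}

theorem col_lt_rowLen (hT : IsTab row col) (z : α) :
    col z < (univ.filter fun y => row y = row z).card := by
  have h : range (col z + 1) ⊆ (univ.filter fun y => row y = row z).image col := by
    intro b hb
    obtain ⟨y, h1, h2⟩ := hT.2 z (row z) b le_rfl (by simpa [Nat.lt_succ_iff] using hb)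
    exact mem_image.2 ⟨y, by simp [h1], h2⟩
  have h' := (card_le_card h).trans card_image_le
  rw [card_range] at h'
  exact h'

theorem rowLen_antitone (hT : IsTab row col) {a b : Fin r} (hab : a ≤ b) :
    (univ.filter fun y => row y = b).card ≤ (univ.filter fun y => row y = a).card := by
  have hinj : Set.InjOn col ((univ.filter fun y => row y = b : Finset α) : Set α) := by
    intro x hx y hy e
    simp only [coe_filter, Set.mem_ofPred_eq, mem_univ, true_and] at hx hy
    exact hT.1 (Prod.ext (hx.trans hy.symm) e)
  rw [← card_image_of_injOn hinj]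
  refine (card_le_card (t := (univ.filter fun y => row y = a).image col) ?_).trans card_image_le
  intro c hc
  obtain ⟨z, hz, rfl⟩ := mem_image.1 hc
  obtain ⟨y, h1, h2⟩ := hT.2 z a (col z) (hab.trans (le_of_eq (mem_filter.1 hz).2.symm)) le_rfl
  exact mem_image.2 ⟨y, by simp [h1], h2⟩

theorem row_big_le (hT : IsTab row col) (i : Fin r) (k : ℕ) :
    ((univ.filter fun z => k ≤ col z).filter fun z => row z = i).card ≤
      (univ.filter fun z => row z = i).card - k := by
  refine (card_le_card_of_injOn (t := Ico k (univ.filter fun z => row z = i).card) col ?_ ?_).trans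
    (le_of_eq (Nat.card_Ico _ _))
  · intro z hz
    obtain ⟨h1, h2⟩ := mem_filter.1 hz
    simp only [coe_Ico, Set.mem_Ico]
    exact ⟨(mem_filter.1 h1).2, h2 ▸ col_lt_rowLen hT z⟩
  · intro x hx y hy e
    exact hT.1 (Prod.ext ((mem_filter.1 hx).2.trans (mem_filter.1 hy).2.symm) e)

theorem two_mul_sum_sub (m : ℕ) : ∀ k ≤ m,
    2 * ∑ a ∈ range k, (m - a) + (m - k) * (m - k + 1) = m * (m + 1) := by
  intro k
  induction k with
  | zero => intro _; simp
  | succ k ih =>
    intro hk
    obtain ⟨t, rfl⟩ := Nat.exists_eq_add_of_le hk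
    have h1 : k + 1 + t - k = t + 1 := by omega
    have h2 : k + 1 + t - (k + 1) = t := by omega
    have h3 := ih (by omega)
    rw [h1] at h3
    rw [sum_range_succ, h1, h2]
    linarith

theorem sum_tail_le {m k : ℕ} (ν : Fin r → ℕ) (hanti : ∀ a b, a ≤ b → ν b ≤ ν a)
    (hkm : k < m) (htot : 2 * ∑ i, ν i = m * (m + 1)) (hm : ∀ i, ν i + 1 ≤ m)
    (h4 : ∑ i ∈ univ.filter (fun i : Fin r => (i : ℕ) < 4), ν i + 2 ≤ 2 * m) :
    2 * ∑ i, (ν i - k) ≤ (m - k) * (m - k + 1) := by
  set A := univ.filter (fun i : Fin r => k < ν i) with hA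
  have hsum : ∑ i, (ν i - k) + A.card * k = ∑ i ∈ A, ν i := by
    rw [← sum_filter_of_ne (p := fun i : Fin r => k < ν i) (fun i _ hi => by omega),
      ← smul_eq_mul, ← sum_const, ← sum_add_distrib]
    exact sum_congr rfl fun i hi => by have := (mem_filter.1 hi).2; omega
  obtain ⟨j, rfl⟩ := Nat.exists_eq_add_of_lt hkm
  have hj : k + j + 1 - k = j + 1 := by omega
  rw [hj]
  set S := ∑ i ∈ A, ν i
  set X := ∑ i, (ν i - k)
  have hall : S ≤ ∑ i, ν i := sum_le_univ_sum_of_nonneg fun _ => Nat.zero_le _
  have hlen : S ≤ A.card * (k + j) := by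
    rw [← smul_eq_mul]
    exact sum_le_card_nsmul A ν _ fun i _ => by have := hm i; omega
  have hdown : ∀ i ∈ A, (i : ℕ) < A.card := by
    intro i hi
    have : Iic i ⊆ A := fun a ha => mem_filter.2 ⟨mem_univ _,
      lt_of_lt_of_le (mem_filter.1 hi).2 (hanti a i (mem_Iic.1 ha))⟩
    have := card_le_card this
    simp at this
    omega
  rcases le_or_gt A.card 3 with hR | hR
  · have hlow : S ≤ ∑ i ∈ univ.filter (fun i : Fin r => (i : ℕ) < 4), ν i :=
      sum_le_sum_of_subset fun i hi => mem_filter.2 ⟨mem_univ _, by have := hdown i hi; omega⟩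
    interval_cases h : A.card <;> rcases j with _ | _ | j <;> nlinarith
  · have hr : 3 < r := by
      have := card_le_univ A
      simp at this
      omega
    set i3 : Fin r := ⟨3, hr⟩
    have h4' : 4 * ν i3 + 2 ≤ 2 * (k + j + 1) := by
      refine le_trans (Nat.add_le_add_right ?_ 2) h4
      have hc : (univ.filter (fun i : Fin r => (i : ℕ) < 4)).card = 4 := by
        rw [show (univ.filter fun i : Fin r => (i : ℕ) < 4) = Iic i3 from Finset.ext fun i => by
          simp [i3, Fin.le_def, Nat.lt_succ_iff]]
        simp [i3]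
      have := card_nsmul_le_sum (univ.filter (fun i : Fin r => (i : ℕ) < 4)) ν (ν i3)
        fun i hi => hanti i i3 (Fin.le_def.2 (by have := (mem_filter.1 hi).2; simp [i3]; omega))
      rwa [hc, smul_eq_mul] at this
    have hsplit := sum_filter_add_sum_filter_not A (fun i : Fin r => (i : ℕ) < 4) ν
    have hlo : ∑ i ∈ A.filter (fun i : Fin r => (i : ℕ) < 4), ν i ≤
        ∑ i ∈ univ.filter (fun i : Fin r => (i : ℕ) < 4), ν i :=
      sum_le_sum_of_subset (filter_subset_filter _ (subset_univ _))
    have hhi : ∑ i ∈ A.filter (fun i : Fin r => ¬ (i : ℕ) < 4), ν i ≤ (A.card - 4) * ν i3 := by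
      refine (sum_le_card_nsmul _ ν (ν i3) fun i hi => ?_).trans ?_
      · exact hanti i3 i (Fin.le_def.2 (by have := (mem_filter.1 hi).2; simp [i3]; omega))
      · rw [smul_eq_mul]
        refine Nat.mul_le_mul_right _ ?_
        have h1 := card_filter_add_card_filter_not (s := A) (fun i : Fin r => (i : ℕ) < 4)
        suffices 4 ≤ (A.filter fun i : Fin r => (i : ℕ) < 4).card by omega
        have hsub : Iic i3 ⊆ A.filter fun i : Fin r => (i : ℕ) < 4 := by
          intro a ha
          have ha' : (a : ℕ) ≤ 3 := by simpa [i3, Fin.le_def] using ha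
          refine mem_filter.2 ⟨?_, by omega⟩
          by_contra hn
          have hb : A ⊆ univ.filter fun i : Fin r => (i : ℕ) < 3 := by
            intro b hb
            refine mem_filter.2 ⟨mem_univ _, ?_⟩
            by_contra hb3
            exact hn (mem_filter.2 ⟨mem_univ _, lt_of_lt_of_le (mem_filter.1 hb).2
              (hanti a b (Fin.le_def.2 (by omega)))⟩)
          have := card_le_card hb
          rw [show (univ.filter fun i : Fin r => (i : ℕ) < 3) = Iio i3 from Finset.ext fun i => by
            simp [i3, Fin.lt_def]] at this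
          simp [i3] at this
          omega
        simpa [i3] using card_le_card hsub
    obtain ⟨u, hu⟩ := Nat.exists_eq_add_of_le hR
    have hu4 : A.card - 4 = u := by omega
    rw [hu4] at hhi
    have h2S : 2 * S ≤ A.card * (k + j) := by
      rw [hu]
      have hu3 := Nat.mul_le_mul_left u h4'
      simp only [Nat.succ_eq_add_one] at *
      change _ = S at hsplit
      linarith
    rcases le_or_gt A.card (k + j + 1) with hRm | hRm
    · rcases le_or_gt (k + j) (2 * k) with h | h
      · nlinarith [Nat.mul_le_mul_left A.card h]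
      · obtain ⟨d, hd⟩ := Nat.exists_eq_add_of_lt h
        nlinarith [Nat.mul_le_mul_right (d + 1) hRm]
    · nlinarith [Nat.mul_le_mul_right k hRm.le]

end ColCountAux

open ColCountAux in
theorem card_col_lt {α : Type} [Fintype α] {m r : ℕ} {row : α → Fin r} {col : α → ℕ}
    (hT : IsTab row col) (hcard : 2 * Fintype.card α = m * (m + 1))
    (h0 : (univ.filter fun z => (row z : ℕ) = 0).card < m)
    (h3 : (univ.filter fun z => (row z : ℕ) < 4).card < 2 * m - 1) (k : ℕ) :
    ∑ a ∈ range k, (m - a) ≤ (univ.filter fun z => col z < k).card := by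
  set ν := fun i : Fin r => (univ.filter fun z => row z = i).card with hν
  have hm : ∀ i, ν i + 1 ≤ m := by
    intro i
    have hr : 0 < r := i.pos
    have h : ν i ≤ ν ⟨0, hr⟩ := rowLen_antitone hT (Fin.le_def.2 (Nat.zero_le _))
    have e : ν ⟨0, hr⟩ = (univ.filter fun z => (row z : ℕ) = 0).card := by
      simp [hν, Fin.ext_iff]
    omega
  rcases le_or_gt m k with hk | hk
  · have hall : (univ.filter fun z => col z < k) = univ := filter_true_of_mem fun z _ => by
      have h1 : col z < ν (row z) := col_lt_rowLen hT z
      have := hm (row z)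
      omega
    have hsum : ∑ a ∈ range k, (m - a) = ∑ a ∈ range m, (m - a) :=
      (sum_subset (range_mono hk) fun a _ ha => by simp at ha; omega).symm
    have := two_mul_sum_sub m m le_rfl
    rw [hall, hsum, card_univ]
    simp at this
    omega
  · have htot : Fintype.card α = ∑ i, ν i :=
      card_eq_sum_card_fiberwise (f := row) (t := univ) fun _ _ => mem_univ _
    have h4 : ∑ i ∈ univ.filter (fun i : Fin r => (i : ℕ) < 4), ν i + 2 ≤ 2 * m := by
      have e : (univ.filter fun z => (row z : ℕ) < 4).card =
          ∑ i ∈ univ.filter (fun i : Fin r => (i : ℕ) < 4), ν i := by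
        rw [card_eq_sum_card_fiberwise (f := row) (t := univ.filter fun i : Fin r => (i : ℕ) < 4)
          fun z hz => by simpa using hz]
        refine sum_congr rfl fun i hi => ?_
        rw [hν, filter_filter]
        congr 1
        ext z
        simp only [mem_filter, mem_univ, true_and, and_iff_right_iff_imp]
        rintro rfl
        exact (mem_filter.1 hi).2
      omega
    have hbig : (univ.filter fun z => k ≤ col z).card ≤ ∑ i, (ν i - k) := by
      rw [card_eq_sum_card_fiberwise (f := row) (t := univ) fun _ _ => mem_univ _]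
      exact sum_le_sum fun i _ => row_big_le hT i k
    have htail := sum_tail_le ν (fun a b h => rowLen_antitone hT h) hk
      (by rw [← htot]; exact hcard) hm h4
    have hid := two_mul_sum_sub m k hk.le
    have hpart : (univ.filter fun z => col z < k).card + (univ.filter fun z => k ≤ col z).card =
        Fintype.card α := by
      rw [← card_univ, ← card_filter_add_card_filter_not (s := univ) (fun z => col z < k)]
      simp
    omega

end Vale.Agent.P197.Saxl
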