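import Mathlib.Analysis.Complex.Basic
import Mathlib.Data.Fintype.BigOperators
import Mathlib.GroupTheory.Perm.Sign
import Mathlib.RepresentationTheory.Basic

/-!
# P197: definitions for the characteristic zero proof of the Saxl conjecture

Tabloids are labellings; a module of tabloids is a space of functions of labellings, on which
permutations act by composition.
-/

namespace Vale.Agent.P197.Saxl

open Finset

section General

variable {α β γ : Type} [Fintype α] [DecidableEq α]

/-- Functions of labellings of `α` by `β`. -/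
abbrev Fn (α β : Type) := (α → β) → ℂ

/-- The permutation action on functions of labellings. -/
def act (g : Equiv.Perm α) : Fn α β →ₗ[ℂ] Fn α β where
  toFun x L := x (L ∘ g)
  map_add' _ _ := rfl
  map_smul' _ _ := rfl

omit [Fintype α] [DecidableEq α] in
theorem act_apply (g : Equiv.Perm α) (x : Fn α β) (L : α → β) : act g x L = x (L ∘ g) := rfl

omit [Fintype α] [DecidableEq α] in
theorem act_mul (g h : Equiv.Perm α) (x : Fn α β) : act (g * h) x = act g (act h x) := rfl

omit [Fintype α] [DecidableEq α] in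
theorem act_one (x : Fn α β) : act (1 : Equiv.Perm α) x = x := rfl

open Classical in
/-- The signed polytabloid of the tableau whose entry `z` lies in cell `(row z, col z)`. -/
noncomputable def poly (row : α → β) (col : α → γ) : Fn α β := fun L =>
  ∑ c : Equiv.Perm α, if col ∘ c = col ∧ row ∘ c = L then ((Equiv.Perm.sign c : ℤˣ) : ℤ) else 0

/-- The bilinear pairing. -/
def pair [DecidableEq β] [Fintype β] (x y : Fn α β) : ℂ := ∑ L, x L * y L

/-- A tableau of partition shape. -/
def IsTab {r : ℕ} (row : α → Fin r) (col : α → ℕ) : Prop :=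
  Function.Injective (fun z => (row z, col z)) ∧
    ∀ z, ∀ a : Fin r, ∀ b, a ≤ row z → b ≤ col z → ∃ y, row y = a ∧ col y = b

theorem poly_ne_zero_support {row : α → β} {col : α → γ} {L : α → β} (h : poly row col L ≠ 0) :
    ∃ c : Equiv.Perm α, col ∘ c = col ∧ row ∘ c = L := by
  classical
  by_contra hc
  push Not at hc
  exact h (Finset.sum_eq_zero fun c _ => if_neg fun hcc => hc c hcc.1 hcc.2)

theorem poly_self {row : α → β} {col : α → γ}
    (h : Function.Injective fun z => (row z, col z)) : poly row col row = 1 := by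
  classical
  refine (Finset.sum_eq_single 1 (fun c _ hc => if_neg fun hcc => hc ?_) (by simp)).trans ?_
  · exact Equiv.ext fun z => h (Prod.ext (congrFun hcc.2 z) (congrFun hcc.1 z))
  · simp

/-- A column permutation multiplies the polytabloid by its sign. -/
theorem act_poly_sign (row : α → β) {col : α → γ} {g : Equiv.Perm α} (hg : col ∘ g = col) :
    act g (poly row col) = ((Equiv.Perm.sign g : ℤˣ) : ℤ) • poly row col := by
  classical
  funext L
  simp only [act_apply, poly, Pi.smul_apply, zsmul_eq_mul, Finset.mul_sum]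
  refine Fintype.sum_equiv (Equiv.mulRight g⁻¹) _ _ fun c => ?_
  have e₁ : (col ∘ ⇑(c * g⁻¹) = col) ↔ col ∘ ⇑c = col := by
    constructor <;> intro h <;> funext z
    · simpa [Function.comp_def, congrFun hg z] using
        (congrFun h (g z)).trans (congrFun hg z)
    · have e := congrFun hg (g⁻¹ z)
      simp only [Function.comp_apply, Equiv.Perm.coe_inv, Equiv.apply_symm_apply] at e
      simpa [Function.comp_def, e] using congrFun h (g⁻¹ z)
  have e₂ : (row ∘ ⇑(c * g⁻¹) = L) ↔ row ∘ ⇑c = L ∘ ⇑g := by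
    constructor <;> intro h <;> funext z
    · simpa using congrFun h (g z)
    · simpa using congrFun h (g⁻¹ z)
  simp only [Equiv.coe_mulRight, e₁, e₂]
  split
  · rcases Int.units_eq_one_or (Equiv.Perm.sign g) with h | h <;> simp [h]
  · simp

variable {W : Type} [AddCommGroup W] [Module ℂ W]

/-- A linear map commuting with the action. -/
def IsEquiv (ρ : Representation ℂ (Equiv.Perm α) W) (h : Fn α β →ₗ[ℂ] W) : Prop :=
  ∀ g x, h (act g x) = ρ g (h x)

/-- A bilinear map commuting with the action. -/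
def IsEquiv₂ (ρ : Representation ℂ (Equiv.Perm α) W)
    (Φ : Fn α β →ₗ[ℂ] Fn α β →ₗ[ℂ] W) : Prop :=
  ∀ g x y, Φ (act g x) (act g y) = ρ g (Φ x y)

end General

/-- The cells of the staircase. -/
abbrev Cell (m : ℕ) := {p : Fin m × Fin m // (p.1 : ℕ) + p.2 < m}

/-- The row of a cell. -/
def cr {m : ℕ} (z : Cell m) : Fin m := z.1.1

/-- The column of a cell. -/
def cc {m : ℕ} (z : Cell m) : Fin m := z.1.2

/-- The polytabloid antisymmetrized along the rows. -/
noncomputable def eR (m : ℕ) : Fn (Cell m) (Fin m) := poly cc cr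

/-- The polytabloid antisymmetrized along the columns. -/
noncomputable def eC (m : ℕ) : Fn (Cell m) (Fin m) := poly cr cc

/-- The pair of polytabloids is detected in the representation. -/
def Good (m : ℕ) {W : Type} [AddCommGroup W] [Module ℂ W]
    (ρ : Representation ℂ (Equiv.Perm (Cell m)) W) : Prop :=
  ∃ Φ : Fn (Cell m) (Fin m) →ₗ[ℂ] Fn (Cell m) (Fin m) →ₗ[ℂ] W,
    IsEquiv₂ ρ Φ ∧ Φ (eR m) (eC m) ≠ 0

/-! ### The rim path -/

/-- The antisymmetric form on two letters. -/
def eps (a b : Fin 2) : ℂ := if a = b then 0 else if a = 0 then 1 else -1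

/-- Row bonds of the path: `(0,1), (2,3), …`, the last vertex carries the letter zero. -/
def uR (k : ℕ) : Fn (Fin (2 * k + 1)) (Fin 2) := fun p =>
  (∏ i : Fin k, eps (p ⟨2 * i, by omega⟩) (p ⟨2 * i + 1, by omega⟩)) *
    if p ⟨2 * k, by omega⟩ = 0 then 1 else 0

/-- Column bonds of the path: `(1,2), (3,4), …`, the first vertex carries the letter zero. -/
def uC (k : ℕ) : Fn (Fin (2 * k + 1)) (Fin 2) := fun q =>
  (∏ i : Fin k, eps (q ⟨2 * i + 1, by omega⟩) (q ⟨2 * i + 2, by omega⟩)) *
    if q ⟨0, by omega⟩ = 0 then 1 else 0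

/-- The local tensors of the path. -/
def pathFam {n r : ℕ} (A : Fin r → Fin 2 → Fin 2 → ℂ) (p q : Fin n → Fin 2) :
    Fn (Fin n) (Fin r) := fun L => ∏ v, A (L v) (p v) (q v)

/-- The contraction of the path. -/
def pathVec (k : ℕ) {r : ℕ} (A : Fin r → Fin 2 → Fin 2 → ℂ) : Fn (Fin (2 * k + 1)) (Fin r) :=
  ∑ p : Fin (2 * k + 1) → Fin 2, ∑ q : Fin (2 * k + 1) → Fin 2,
    (uR k p * uC k q) • pathFam A p q

/-- The staircase two sizes larger consists of the staircase and a path. -/
def split₂ (m : ℕ) : Cell (m + 2) ≃ Cell m ⊕ Fin (2 * (m + 1) + 1) where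
  toFun z :=
    if h : (z.1.1 : ℕ) + z.1.2 < m then .inl ⟨(⟨z.1.1, by omega⟩, ⟨z.1.2, by omega⟩), h⟩
    else .inr ⟨2 * z.1.1 + (m + 1 - (z.1.1 + z.1.2)), by have := z.2; omega⟩
  invFun := Sum.elim
    (fun z => ⟨(⟨z.1.1, by omega⟩, ⟨z.1.2, by omega⟩), by have := z.2; simp only; omega⟩)
    (fun v => ⟨(⟨v / 2, by omega⟩, ⟨m + 1 - (v + 1) / 2, by omega⟩), by simp only; omega⟩)
  left_inv := by
    rintro ⟨⟨⟨i, hi⟩, ⟨j, hj⟩⟩, hij⟩
    simp only at hij ⊢
    split
    · rfl
    · simp only [Sum.elim_inr, Subtype.mk.injEq, Prod.mk.injEq, Fin.mk.injEq]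
      omega
  right_inv := by
    rintro (⟨⟨⟨i, hi⟩, ⟨j, hj⟩⟩, hij⟩ | ⟨v, hv⟩)
    · simp only [Sum.elim_inl]
      exact dif_pos hij
    · simp only [Sum.elim_inr]
      refine (dif_neg (show ¬ v / 2 + (m + 1 - (v + 1) / 2) < m by omega)).trans ?_
      simp only [Sum.inr.injEq, Fin.mk.injEq]
      omega

/-- The staircase one size larger consists of the staircase and the antidiagonal. -/
def split₁ (m : ℕ) : Cell (m + 1) ≃ Cell m ⊕ Fin (m + 1) where
  toFun z :=
    if h : (z.1.1 : ℕ) + z.1.2 < m then .inl ⟨(⟨z.1.1, by omega⟩, ⟨z.1.2, by omega⟩), h⟩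
    else .inr z.1.1
  invFun := Sum.elim
    (fun z => ⟨(⟨z.1.1, by omega⟩, ⟨z.1.2, by omega⟩), by have := z.2; simp only; omega⟩)
    (fun v => ⟨(v, ⟨m - v, by omega⟩), by simp only; omega⟩)
  left_inv := by
    rintro ⟨⟨⟨i, hi⟩, ⟨j, hj⟩⟩, hij⟩
    simp only at hij ⊢
    split
    · rfl
    · simp only [Sum.elim_inr, Subtype.mk.injEq, Prod.mk.injEq, Fin.mk.injEq, true_and]
      omega
  right_inv := by
    rintro (⟨⟨⟨i, hi⟩, ⟨j, hj⟩⟩, hij⟩ | ⟨v, hv⟩)
    · simp only [Sum.elim_inl]
      exact dif_pos hij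
    · simp only [Sum.elim_inr]
      exact dif_neg (show ¬ v + (m - v) < m by omega)

/-- The rim gets the letters zero and one, the inner labels move up by two. -/
def glue₂ {m : ℕ} (L : Cell m → Fin m) (p : Fin (2 * (m + 1) + 1) → Fin 2) :
    Cell (m + 2) → Fin (m + 2) :=
  Sum.elim (fun z => ⟨L z + 2, by omega⟩) (fun v => ⟨p v, by omega⟩) ∘ split₂ m

/-- The antidiagonal gets the letter zero, the inner labels move up by one. -/
def glue₁ {m : ℕ} (L : Cell m → Fin m) (p : Fin (m + 1) → Fin 1) :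
    Cell (m + 1) → Fin (m + 1) :=
  Sum.elim (fun z => ⟨L z + 1, by omega⟩) (fun v => ⟨p v, by omega⟩) ∘ split₁ m

/-! ### Permutations of a split set -/

/-- Permutations of the two parts, acting on the whole. -/
def splitHom {A B C : Type} (e : C ≃ A ⊕ B) : Equiv.Perm A × Equiv.Perm B →* Equiv.Perm C where
  toFun g := e.trans ((Equiv.sumCongr g.1 g.2).trans e.symm)
  map_one' := Equiv.ext fun z => by
    show e.symm ((e z).map id id) = z
    simp
  map_mul' g h := Equiv.ext fun z => by
    show e.symm ((e z).map _ _) = e.symm ((e (e.symm ((e z).map h.1 h.2))).map g.1 g.2)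
    cases e z <;> simp

theorem splitHom_apply {A B C : Type} (e : C ≃ A ⊕ B) (g : Equiv.Perm A × Equiv.Perm B) (z : C) :
    splitHom e g z = e.symm ((e z).map g.1 g.2) := rfl

theorem glue₂_comp {m : ℕ} (L : Cell m → Fin m) (p : Fin (2 * (m + 1) + 1) → Fin 2)
    (g : Equiv.Perm (Cell m) × Equiv.Perm (Fin (2 * (m + 1) + 1))) :
    glue₂ L p ∘ ⇑(splitHom (split₂ m) g) = glue₂ (L ∘ g.1) (p ∘ g.2) := by
  funext z
  simp only [glue₂, Function.comp_apply, splitHom_apply, Equiv.apply_symm_apply]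
  cases split₂ m z <;> rfl

theorem glue₁_comp {m : ℕ} (L : Cell m → Fin m) (p : Fin (m + 1) → Fin 1)
    (g : Equiv.Perm (Cell m) × Equiv.Perm (Fin (m + 1))) :
    glue₁ L p ∘ ⇑(splitHom (split₁ m) g) = glue₁ (L ∘ g.1) (p ∘ g.2) := by
  funext z
  simp only [glue₁, Function.comp_apply, splitHom_apply, Equiv.apply_symm_apply]
  cases split₁ m z <;> rfl

end Vale.Agent.P197.Saxl
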