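import Vale.Agent.P197.Saxl.Defs
import Mathlib.LinearAlgebra.Dual.Lemmas
import Mathlib.Data.Finset.Powerset

/-!
# P197: descent in dominance order

A vector which is antisymmetric on the fibres of a labelling yields one which is antisymmetric on
the fibres of every labelling with more balanced fibres.
-/

namespace Vale.Agent.P197.Saxl

open Finset

/-! ### The raising map on subsets is injective -/

section Up

variable {α : Type} [DecidableEq α]

/-- Below the middle layer, summing over the facets is injective. -/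
theorem up_injective (U : Finset α) (f : Finset α → ℝ) {b : ℕ} (hb : 2 * b < U.card)
    (h : ∀ T ⊆ U, T.card = b + 1 → ∑ z ∈ T, f (T.erase z) = 0) :
    ∀ S ⊆ U, S.card = b → f S = 0 := by
  set g : Finset α → ℝ := fun R => ∑ z ∈ U \ R, f (insert z R) with hg
  set P := U.powersetCard b with hP
  set Q := U.powerset.filter fun R => R.card + 1 = b with hQ
  have key : ∀ S ∈ P, ∑ y ∈ S, g (S.erase y) = -((U.card : ℝ) - 2 * b) * f S := by
    intro S hS
    obtain ⟨hSU, hSc⟩ := mem_powersetCard.1 hS
    have h1 : ∀ z ∈ U \ S, f S + ∑ y ∈ S, f (insert z (S.erase y)) = 0 := by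
      intro z hz
      obtain ⟨hzU, hzS⟩ := mem_sdiff.1 hz
      have := h (insert z S) (insert_subset hzU hSU) (by rw [card_insert_of_notMem hzS, hSc])
      rw [sum_insert hzS, erase_insert hzS] at this
      rw [← this]
      congr 1
      refine sum_congr rfl fun y hy => ?_
      rw [erase_insert_of_ne (fun e => hzS (by rwa [e]))]
    have h2 : ∀ y ∈ S, g (S.erase y) = f S + ∑ z ∈ U \ S, f (insert z (S.erase y)) := by
      intro y hy
      have e : U \ S.erase y = insert y (U \ S) := by
        ext z
        simp only [mem_sdiff, mem_erase, mem_insert]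
        constructor
        · rintro ⟨hzU, hz⟩
          by_cases hzy : z = y
          · exact Or.inl hzy
          · exact Or.inr ⟨hzU, fun hzS => hz ⟨hzy, hzS⟩⟩
        · rintro (rfl | ⟨hzU, hz⟩)
          · exact ⟨hSU hy, fun hz => hz.1 rfl⟩
          · exact ⟨hzU, fun hz' => hz hz'.2⟩
      simp only [hg]
      rw [e, sum_insert (by simp [hy]), insert_erase hy]
    have h3 := sum_eq_zero h1
    rw [sum_add_distrib, sum_const, nsmul_eq_mul, card_sdiff_of_subset hSU, sum_comm,
      Nat.cast_sub (card_le_card hSU), hSc] at h3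
    rw [sum_congr rfl h2, sum_add_distrib, sum_const, nsmul_eq_mul, hSc]
    linarith
  have hswap : ∑ S ∈ P, ∑ y ∈ S, f S * g (S.erase y) = ∑ R ∈ Q, g R * g R := by
    have e : ∀ R ∈ Q, g R * g R = ∑ z ∈ U \ R, f (insert z R) * g R := fun R _ => by
      simp only [hg, sum_mul]
    rw [sum_congr rfl e, sum_sigma', sum_sigma']
    refine sum_bij' (fun p _ => ⟨p.1.erase p.2, p.2⟩) (fun p _ => ⟨insert p.2 p.1, p.2⟩)
      ?_ ?_ ?_ ?_ ?_
    · rintro ⟨S, y⟩ hp
      obtain ⟨hS, hy⟩ := mem_sigma.1 hp
      obtain ⟨hSU, hSc⟩ := mem_powersetCard.1 hS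
      refine mem_sigma.2 ⟨mem_filter.2 ⟨mem_powerset.2 ((erase_subset _ _).trans hSU), ?_⟩, ?_⟩
      · rw [card_erase_add_one hy, hSc]
      · exact mem_sdiff.2 ⟨hSU hy, by simp⟩
    · rintro ⟨R, z⟩ hp
      obtain ⟨hR, hz⟩ := mem_sigma.1 hp
      obtain ⟨hRU, hRc⟩ := mem_filter.1 hR
      obtain ⟨hzU, hzR⟩ := mem_sdiff.1 hz
      refine mem_sigma.2 ⟨mem_powersetCard.2 ⟨insert_subset hzU (mem_powerset.1 hRU), ?_⟩, ?_⟩
      · rw [card_insert_of_notMem hzR, hRc]
      · exact mem_insert_self _ _
    · rintro ⟨S, y⟩ hp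
      simp [insert_erase (mem_sigma.1 hp).2]
    · rintro ⟨R, z⟩ hp
      simp [erase_insert (mem_sdiff.1 (mem_sigma.1 hp).2).2]
    · rintro ⟨S, y⟩ hp
      simp [insert_erase (mem_sigma.1 hp).2]
  have hsum : ((U.card : ℝ) - 2 * b) * ∑ S ∈ P, f S * f S = -∑ R ∈ Q, g R * g R := by
    rw [← hswap, mul_sum, ← sum_neg_distrib]
    refine sum_congr rfl fun S hS => ?_
    rw [← mul_sum, key S hS]
    ring
  intro S hSU hSc
  have hpos : (0 : ℝ) < (U.card : ℝ) - 2 * b := by
    have : ((2 * b : ℕ) : ℝ) < U.card := by exact_mod_cast hb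
    push_cast at this
    linarith
  have hle : ∑ S ∈ P, f S * f S ≤ 0 := by
    have : 0 ≤ ∑ R ∈ Q, g R * g R := sum_nonneg fun R _ => mul_self_nonneg _
    nlinarith
  have h0 := (sum_eq_zero_iff_of_nonneg fun S _ => mul_self_nonneg (f S)).1
    (le_antisymm hle (sum_nonneg fun S _ => mul_self_nonneg _)) S (mem_powersetCard.2 ⟨hSU, hSc⟩)
  exact mul_self_eq_zero.1 h0

end Up

/-! ### Transfer between labellings -/

section Transfer

variable {α : Type} [Fintype α]

/-- The size of a fibre. -/
def cnt (L : α → ℕ) (k : ℕ) : ℕ := (univ.filter fun z => L z = k).card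

/-- The number of elements with a label below `k`. -/
def below (L : α → ℕ) (k : ℕ) : ℕ := (univ.filter fun z => L z < k).card

theorem below_succ (L : α → ℕ) (k : ℕ) : below L (k + 1) = below L k + cnt L k := by
  classical
  rw [below, below, cnt, ← card_union_of_disjoint (disjoint_filter.2 fun z _ h1 h2 => by omega),
    ← filter_or]
  exact congrArg card (filter_congr fun z _ => by omega)

theorem below_zero (L : α → ℕ) : below L 0 = 0 := by simp [below]

theorem below_le (L : α → ℕ) (k : ℕ) : below L k ≤ Fintype.card α := card_le_univ _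

/-- Labellings with equal fibre sizes differ by a permutation. -/
theorem exists_perm_of_cnt {L M : α → ℕ} (h : ∀ k, cnt M k = cnt L k) :
    ∃ g : Equiv.Perm α, L ∘ g = M := by
  classical
  exact ⟨Equiv.ofFiberEquiv (f := M) (g := L) fun k =>
    Fintype.equivOfCardEq (by simpa [Fintype.card_subtype, cnt] using h k),
    funext fun z => Equiv.ofFiberEquiv_map _ z⟩

variable [DecidableEq α] {W : Type} [AddCommGroup W] [Module ℂ W]
  (σ : Representation ℂ (Equiv.Perm α) W)

/-- The translate of a fixed vector attached to a labelling in the orbit. -/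
noncomputable def orb (L : α → ℕ) (ω : W) (M : α → ℕ) : W :=
  open Classical in
  if h : ∃ g : Equiv.Perm α, L ∘ g = M then σ h.choose⁻¹ ω else 0

variable {L : α → ℕ} {ω : W} (hfix : ∀ g : Equiv.Perm α, L ∘ g = L → σ g ω = ω)
include hfix

theorem orb_eq (g : Equiv.Perm α) : orb σ L ω (L ∘ g) = σ g⁻¹ ω := by
  have h : ∃ g' : Equiv.Perm α, L ∘ g' = L ∘ g := ⟨g, rfl⟩
  rw [orb, dif_pos h]
  have h1 : σ (h.choose * g⁻¹) ω = ω := hfix _ (funext fun z => by
    simpa using congrFun h.choose_spec (g⁻¹ z))
  conv_lhs => rw [← h1]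
  rw [← Module.End.mul_apply, ← map_mul, inv_mul_cancel_left]

theorem orb_comp (M : α → ℕ) (g : Equiv.Perm α) :
    orb σ L ω (M ∘ g) = σ g⁻¹ (orb σ L ω M) := by
  by_cases h : ∃ g' : Equiv.Perm α, L ∘ g' = M
  · obtain ⟨g', rfl⟩ := h
    have e : (L ∘ ⇑g') ∘ ⇑g = L ∘ ⇑(g' * g) := rfl
    rw [e, orb_eq σ hfix, orb_eq σ hfix, ← Module.End.mul_apply, ← map_mul, mul_inv_rev]
  · have h' : ¬ ∃ g' : Equiv.Perm α, L ∘ g' = M ∘ g := by
      rintro ⟨g', hg⟩
      refine h ⟨g' * g⁻¹, funext fun z => ?_⟩
      simpa using congrFun hg (g⁻¹ z)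
    rw [orb, dif_neg h', orb, dif_neg h, map_zero]

/-- Moving one element from a larger fibre to a smaller one keeps a nonzero fixed vector. -/
theorem transfer (hω : ω ≠ 0) {i j : ℕ} (hij : i ≠ j) (hab : cnt L j < cnt L i) :
    ∃ L' : α → ℕ, cnt L' i + 1 = cnt L i ∧ cnt L' j = cnt L j + 1 ∧
      (∀ k, k ≠ i → k ≠ j → cnt L' k = cnt L k) ∧
      ∃ w : W, w ≠ 0 ∧ ∀ g : Equiv.Perm α, L' ∘ g = L' → σ g w = w := by
  classical
  set u : (α → ℕ) → W := fun M =>
    ∑ z ∈ univ.filter (fun z => M z = j), orb σ L ω (Function.update M z i) with hu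
  have u_comp : ∀ M (g : Equiv.Perm α), u (M ∘ g) = σ g⁻¹ (u M) := by
    intro M g
    simp only [hu, map_sum]
    refine sum_equiv g (by simp) fun z _ => ?_
    rw [← orb_comp σ hfix, Function.update_comp_equiv]
    simp
  set U := univ.filter fun z => L z = i ∨ L z = j with hU
  set b := cnt L j with hb
  set lab : Finset α → α → ℕ := fun S z => if z ∈ S then j else if z ∈ U then i else L z
    with hlab
  have hUc : U.card = cnt L i + b := by
    rw [hU, filter_or, card_union_of_disjoint (disjoint_filter.2 fun z _ h1 h2 => by omega)]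
    rfl
  have lab_j : ∀ S, univ.filter (fun z => lab S z = j) = S := by
    intro S
    ext z
    by_cases h1 : z ∈ S <;> by_cases h2 : z ∈ U <;> simp [hlab, h1, h2, hij]
    simp [hU] at h2
    exact h2.2
  by_cases hT : ∃ T ⊆ U, T.card = b + 1 ∧ u (lab T) ≠ 0
  · obtain ⟨T, hTU, hTc, hne⟩ := hT
    have hj : cnt (lab T) j = b + 1 := by rw [cnt, lab_j, hTc]
    have hi : univ.filter (fun z => lab T z = i) = U \ T := by
      ext z
      by_cases h1 : z ∈ T <;> by_cases h2 : z ∈ U <;> simp [hlab, h1, h2, Ne.symm hij]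
      simp [hU] at h2
      exact h2.1
    refine ⟨lab T, ?_, hj, fun k hki hkj => ?_, u (lab T), hne, fun g hg => ?_⟩
    · rw [cnt, hi, card_sdiff_of_subset hTU, hUc, hTc]
      omega
    · refine congrArg card (filter_congr fun z _ => ?_)
      by_cases h2 : z ∈ U
      · have h2' := (mem_filter.1 h2).2
        by_cases h1 : z ∈ T <;> simp [hlab, h1, h2] <;> omega
      · have h1 : z ∉ T := fun h => h2 (hTU h)
        simp [hlab, h1, h2]
    · have := u_comp (lab T) g⁻¹
      rw [inv_inv] at this
      rw [← this]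
      congr 1
      funext z
      simpa using (congrFun hg (g⁻¹ z)).symm
  · push Not at hT
    refine absurd ?_ hω
    have hS : lab (univ.filter fun z => L z = j) = L := by
      funext z
      simp only [hlab, hU, mem_filter, mem_univ, true_and]
      by_cases h1 : L z = j <;> by_cases h2 : L z = i <;> simp [h1, h2, hij]
    have hall : ∀ φ : Module.Dual ℂ W, (φ ω).re = 0 := by
      intro φ
      have := up_injective U (fun S => (φ (orb σ L ω (lab S))).re) (b := b) (by omega)
        (fun T hTU hTc => by
          have e : u (lab T) = ∑ z ∈ T, orb σ L ω (lab (T.erase z)) := by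
            simp only [hu, lab_j]
            refine sum_congr rfl fun z hz => congrArg _ (funext fun y => ?_)
            rcases eq_or_ne y z with rfl | hy
            · simp [hlab, hTU hz]
            · simp [hlab, hy]
          have h0 := hT T hTU hTc
          rw [e] at h0
          simpa [map_sum, Complex.re_sum] using congrArg (fun v => (φ v).re) h0)
        (univ.filter fun z => L z = j) (fun z hz => by simp_all) rfl
      rw [hS] at this
      have e := orb_eq σ hfix 1
      simp only [Equiv.Perm.coe_one, Function.comp_id, inv_one, map_one, Module.End.one_apply] at e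
      rwa [e] at this
    refine (Module.forall_dual_apply_eq_zero_iff ℂ ω).1 fun φ => Complex.ext (hall φ) ?_
    simpa using hall (Complex.I • φ)

end Transfer

/-! ### The staircase -/

theorem cnt_cc (m k : ℕ) : cnt (fun z : Cell m => (cc z : ℕ)) k = m - k := by
  classical
  rw [cnt, ← Fintype.card_subtype]
  conv_rhs => rw [← Fintype.card_fin (m - k)]
  refine Fintype.card_congr ⟨fun z => ⟨z.1.1.1, ?_⟩,
    fun a => ⟨⟨(⟨a, by have := a.isLt; omega⟩, ⟨k, by have := a.isLt; omega⟩),
      by have := a.isLt; simp only; omega⟩, rfl⟩, ?_, fun a => rfl⟩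
  · have h1 := z.1.2
    have h2 : (z.1.1.2 : ℕ) = k := z.2
    omega
  · rintro ⟨⟨⟨p, q⟩, h⟩, hq⟩
    apply Subtype.ext
    apply Subtype.ext
    exact Prod.ext (Fin.ext rfl) (Fin.ext hq.symm)

theorem below_cc (m k : ℕ) :
    below (fun z : Cell m => (cc z : ℕ)) k = ∑ a ∈ range k, (m - a) := by
  induction k with
  | zero => simp [below_zero]
  | succ k ih => rw [below_succ, sum_range_succ, ih, cnt_cc]

theorem card_cell (m : ℕ) : Fintype.card (Cell m) = ∑ a ∈ range m, (m - a) := by
  rw [← below_cc, below, filter_true_of_mem fun z _ => (cc z).2, card_univ]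

theorem descent_aux {m : ℕ} {W : Type} [AddCommGroup W] [Module ℂ W]
    (σ : Representation ℂ (Equiv.Perm (Cell m)) W) :
    ∀ (N : ℕ) (L : Cell m → ℕ) (ω : W), ω ≠ 0 →
      (∀ g : Equiv.Perm (Cell m), L ∘ g = L → σ g ω = ω) →
      (∀ k, ∑ a ∈ range k, (m - a) ≤ below L k) → ∑ k ∈ range (m + 1), below L k ≤ N →
      ∃ w : W, w ≠ 0 ∧
        ∀ g : Equiv.Perm (Cell m), (fun z => (cc z : ℕ)) ∘ g = (fun z => (cc z : ℕ)) →
          σ g w = w := by
  intro N
  induction N using Nat.strong_induction_on with
  | _ N ih =>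
  intro L ω hω hfix hdom hN
  classical
  by_cases heq : ∀ k, cnt L k = m - k
  · obtain ⟨g, hg⟩ := exists_perm_of_cnt
      (L := L) (M := fun z : Cell m => (cc z : ℕ)) fun k => by rw [cnt_cc, heq]
    refine ⟨σ g⁻¹ ω, ?_, fun h hh => ?_⟩
    · intro h0
      apply hω
      have := congrArg (σ g) h0
      rwa [map_zero, ← Module.End.mul_apply, ← map_mul, mul_inv_cancel, map_one,
        Module.End.one_apply] at this
    · rw [← orb_eq σ hfix g, hg]
      have := orb_comp σ hfix (fun z : Cell m => (cc z : ℕ)) h⁻¹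
      rw [inv_inv] at this
      rw [← this]
      congr 1
      funext z
      simpa using (congrFun hh (h⁻¹ z)).symm
  push Not at heq
  set i := Nat.find heq with hi
  have hbase : ∀ k, k ≤ i → below L k = ∑ a ∈ range k, (m - a) := by
    intro k hk
    induction k with
    | zero => simp [below_zero]
    | succ k ihk =>
      rw [below_succ, sum_range_succ, ihk (by omega)]
      exact congrArg _ (by simpa using Nat.find_min heq (show k < i by omega))
  have hai : m - i < cnt L i := by
    have h1 := hdom (i + 1)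
    rw [below_succ, sum_range_succ, hbase i le_rfl] at h1
    have h2 : cnt L i ≠ m - i := Nat.find_spec heq
    omega
  have him : i < m := by
    by_contra hc
    have h1 := below_le L (i + 1)
    rw [below_succ, card_cell] at h1
    have h2 : ∑ a ∈ range m, (m - a) ≤ below L i :=
      (sum_le_sum_of_subset (range_mono (by omega))).trans (hdom i)
    omega
  -- the prefix sums are strictly too large until a deficient label occurs
  have hstrict : ∀ k, (∀ l, i < l → l < k → m - l ≤ cnt L l) → i < k →
      ∑ a ∈ range k, (m - a) < below L k := by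
    intro k
    induction k with
    | zero => omega
    | succ k ihk =>
      intro hl hik
      rw [below_succ, sum_range_succ]
      rcases Nat.lt_or_ge i k with h | h
      · have := ihk (fun l h1 h2 => hl l h1 (by omega)) h
        have := hl k h (by omega)
        omega
      · obtain rfl : k = i := by omega
        rw [hbase _ le_rfl]
        omega
  have hex : ∃ l, i < l ∧ cnt L l < m - l := by
    by_contra hc
    push Not at hc
    have h1 := hstrict m (fun l h _ => hc l h) him
    have h2 := below_le L m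
    rw [card_cell] at h2
    omega
  set j := Nat.find hex with hj
  obtain ⟨hij, hbj⟩ : i < j ∧ cnt L j < m - j := Nat.find_spec hex
  obtain ⟨L', hci, hcj, hck, w, hw, hwfix⟩ :=
    transfer σ hfix hω (show i ≠ j by omega) (show cnt L j < cnt L i by omega)
  have hbel : ∀ k, below L' k + (if i < k ∧ k ≤ j then 1 else 0) = below L k := by
    intro k
    induction k with
    | zero => simp [below_zero]
    | succ k ihk =>
      rw [below_succ, below_succ]
      by_cases h1 : k = i
      · subst h1
        split_ifs at ihk ⊢ <;> omega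
      · by_cases h2 : k = j
        · subst h2
          split_ifs at ihk ⊢ <;> omega
        · have := hck k h1 h2
          split_ifs at ihk ⊢ <;> omega
  have hdom' : ∀ k, ∑ a ∈ range k, (m - a) ≤ below L' k := by
    intro k
    have h1 := hbel k
    have h2 := hdom k
    split_ifs at h1 with hk
    · have := hstrict k (fun l h3 h4 => by
        have := Nat.find_min hex (show l < j by omega)
        push Not at this
        exact this h3) hk.1
      omega
    · omega
  have hlt : ∑ k ∈ range (m + 1), below L' k < ∑ k ∈ range (m + 1), below L k := by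
    refine sum_lt_sum (fun k _ => by have := hbel k; omega) ⟨j, mem_range.2 (by omega), ?_⟩
    have := hbel j
    rw [if_pos ⟨hij, le_rfl⟩] at this
    omega
  exact ih _ (by omega) L' w hw hwfix hdom' le_rfl

/-- A representation twisted by the sign. -/
noncomputable def twist {α W : Type} [Fintype α] [DecidableEq α] [AddCommGroup W] [Module ℂ W]
    (ρ : Representation ℂ (Equiv.Perm α) W) : Representation ℂ (Equiv.Perm α) W where
  toFun g := ((Equiv.Perm.sign g : ℤˣ) : ℤ) • ρ g
  map_one' := by simp
  map_mul' g h := by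
    ext v
    simp [smul_smul, mul_comm]

theorem twist_eq_iff {α W : Type} [Fintype α] [DecidableEq α] [AddCommGroup W] [Module ℂ W]
    (ρ : Representation ℂ (Equiv.Perm α) W) (g : Equiv.Perm α) (v : W) :
    twist ρ g v = v ↔ ρ g v = ((Equiv.Perm.sign g : ℤˣ) : ℤ) • v := by
  show ((Equiv.Perm.sign g : ℤˣ) : ℤ) • ρ g v = v ↔ _
  rcases Int.units_eq_one_or (Equiv.Perm.sign g) with h | h <;> simp [h, neg_eq_iff_eq_neg]

/-- A fibrewise antisymmetric vector for a dominating labelling gives one for the staircase. -/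
theorem exists_sign_fixed {m : ℕ} {W : Type} [AddCommGroup W] [Module ℂ W]
    (ρ : Representation ℂ (Equiv.Perm (Cell m)) W) (col : Cell m → ℕ) {ω : W} (hω0 : ω ≠ 0)
    (hω : ∀ g : Equiv.Perm (Cell m), col ∘ g = col →
      ρ g ω = ((Equiv.Perm.sign g : ℤˣ) : ℤ) • ω)
    (hdom : ∀ k, ∑ a ∈ range k, (m - a) ≤ (univ.filter fun z => col z < k).card) :
    ∃ w : W, w ≠ 0 ∧ ∀ g : Equiv.Perm (Cell m), cc ∘ g = cc →
      ρ g w = ((Equiv.Perm.sign g : ℤˣ) : ℤ) • w := by
  obtain ⟨w, hw, hfix⟩ := descent_aux (twist ρ) _ col ω hω0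
    (fun g hg => (twist_eq_iff ρ g ω).2 (hω g hg)) hdom le_rfl
  exact ⟨w, hw, fun g hg => (twist_eq_iff ρ g w).1
    (hfix g (funext fun z => congrArg Fin.val (congrFun hg z)))⟩

end Vale.Agent.P197.Saxl
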