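import Vale.Agent.P197.Saxl.Defs
import Mathlib.GroupTheory.Perm.Finite
import Mathlib.Data.Fintype.Fin
import Mathlib.Algebra.Order.BigOperators.Group.Finset
import Mathlib.Tactic.Linarith

/-!
# P197: the rim is forced
-/

namespace Vale.Agent.P197.Saxl

open Finset

namespace ForcingAux

theorem eq_of_top {X : Type} [DecidableEq X] {S R : Finset X} {f : X → ℕ} {t : ℕ}
    (hlo : ∀ z, z ∉ R → f z < t) (hhi : ∀ z ∈ R, t ≤ f z) (hc : S.card = R.card)
    (hs : ∑ z ∈ R, f z ≤ ∑ z ∈ S, f z) : S = R := by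
  refine eq_of_subset_of_card_le ?_ hc.ge
  rw [← sdiff_eq_empty_iff_subset]
  by_contra hne
  have h1 : ∑ z ∈ S \ R, f z < (S \ R).card * t := by
    rw [← smul_eq_mul, ← sum_const]
    exact sum_lt_sum_of_nonempty (nonempty_iff_ne_empty.2 hne)
      fun z hz => hlo z (mem_sdiff.1 hz).2
  have h2 : (R \ S).card * t ≤ ∑ z ∈ R \ S, f z := by
    rw [← smul_eq_mul]
    exact card_nsmul_le_sum _ _ _ fun z hz => hhi z (mem_sdiff.1 hz).1
  rw [card_sdiff_comm hc] at h1
  have h3 := sum_inter_add_sum_sdiff S R f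
  have h4 := sum_inter_add_sum_sdiff R S f
  rw [inter_comm R S] at h4
  omega

theorem sum_coord {X Y : Type} [Fintype X] [DecidableEq X] {a b : X → Y} {u : Y → ℕ} {P : Y → Prop}
    [DecidablePred P] {L : X → Y} (h : poly a b L ≠ 0) :
    ∑ z ∈ univ.filter (fun z => P (L z)), u (b z) =
      ∑ z ∈ univ.filter (fun z => P (a z)), u (b z) := by
  classical
  obtain ⟨c, h1, h2⟩ := poly_ne_zero_support h
  refine sum_equiv c (fun z => ?_) fun z _ => ?_
  · simp [← h2]
  · rw [← congrFun h1 z]; rfl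

theorem mem_range {M d t : ℕ} {A B : Type} [Fintype A] [Fintype B] (e : Cell M ≃ A ⊕ B)
    {lab lab' : Cell M → Fin M} (hlab : ∀ z, (lab z : ℕ) < d ↔ (e z).isRight = true)
    (hlab' : ∀ z, (lab' z : ℕ) < d ↔ (e z).isRight = true)
    (hlo : ∀ z, (e z).isRight = false → (cr z : ℕ) + cc z < t)
    (hhi : ∀ z, (e z).isRight = true → t ≤ (cr z : ℕ) + cc z)
    (htot : ∑ z ∈ univ.filter (fun z => (e z).isRight = true), ((cr z : ℕ) + cc z) ≤
      ∑ z ∈ univ.filter (fun z : Cell M => (cc z : ℕ) < d), (cr z : ℕ) +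
        ∑ z ∈ univ.filter (fun z : Cell M => (cr z : ℕ) < d), (cc z : ℕ))
    {g : Equiv.Perm (Cell M)} (h₁ : eR M (lab ∘ g) ≠ 0) (h₂ : eC M (lab' ∘ g) ≠ 0) :
    g ∈ (splitHom e).range := by
  classical
  set R := univ.filter (fun z => (e z).isRight = true) with hR
  set S := univ.filter (fun z => (e (g z)).isRight = true) with hS
  have hSR : S = R := by
    refine eq_of_top (f := fun z : Cell M => (cr z : ℕ) + cc z) (t := t)
      (fun z hz => hlo z (by simpa [hR] using hz)) (fun z hz => hhi z (by simpa [hR] using hz))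
      (card_equiv g fun z => by simp [hR, hS]) ?_
    rw [sum_add_distrib (s := S)]
    refine htot.trans (le_of_eq ?_)
    have k₁ := sum_coord (u := fun i : Fin M => (i : ℕ)) (P := fun x : Fin M => (x : ℕ) < d) h₁
    have k₂ := sum_coord (u := fun i : Fin M => (i : ℕ)) (P := fun x : Fin M => (x : ℕ) < d) h₂
    simp only [Function.comp_apply, hlab] at k₁
    simp only [Function.comp_apply, hlab'] at k₂
    rw [k₁, k₂]
  have hmaps : Set.MapsTo (e.permCongr g) (Set.range Sum.inl) (Set.range Sum.inl) := by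
    rintro x ⟨a, rfl⟩
    have hn : e.symm (.inl a) ∉ S := by simp [hSR, hR]
    simp only [hS, mem_filter, mem_univ, true_and] at hn
    rcases hx : e (g (e.symm (.inl a))) with a' | b'
    · exact ⟨a', by rw [Equiv.permCongr_apply, hx]⟩
    · simp [hx] at hn
  obtain ⟨s, hs⟩ := Equiv.Perm.mem_sumCongrHom_range_of_perm_mapsTo_inl hmaps
  refine ⟨s, Equiv.ext fun z => ?_⟩
  have := congrFun (congrArg DFunLike.coe hs) (e z)
  simp only [Equiv.Perm.sumCongrHom_apply, Equiv.sumCongr_apply, Equiv.permCongr_apply,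
    Equiv.symm_apply_apply] at this
  rw [splitHom_apply, this, Equiv.symm_apply_apply]

theorem sum_fin_rev (N : ℕ) : 2 * ∑ v : Fin (N + 1), (v : ℕ) = ∑ _v : Fin (N + 1), N := by
  rw [two_mul]
  conv_lhs => arg 2; rw [← Equiv.sum_comp Fin.revPerm]
  rw [← sum_add_distrib]
  exact sum_congr rfl fun v _ => by simp [Fin.val_rev]; omega

theorem rim₂ (m : ℕ) :
    ∑ z ∈ univ.filter (fun z => ((split₂ m) z).isRight = true), ((cr z : ℕ) + cc z) ≤
      ∑ z ∈ univ.filter (fun z : Cell (m + 2) => (cc z : ℕ) < 2), (cr z : ℕ) +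
        ∑ z ∈ univ.filter (fun z : Cell (m + 2) => (cr z : ℕ) < 2), (cc z : ℕ) := by
  classical
  have e₀ : ∑ z ∈ univ.filter (fun z => ((split₂ m) z).isRight = true), ((cr z : ℕ) + cc z) =
      ∑ v : Fin (2 * (m + 1) + 1), ((v : ℕ) / 2 + (m + 1 - ((v : ℕ) + 1) / 2)) := by
    symm
    refine sum_bij' (fun v _ => (split₂ m).symm (.inr v))
      (fun z hz => ((split₂ m) z).getRight (mem_filter.1 hz).2) (by simp) (by simp) (by simp)
      (fun z hz => by simp [Sum.inr_getRight]) fun v _ => rfl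
  have e₁ : ∑ z ∈ univ.filter (fun z : Cell (m + 2) => (cc z : ℕ) < 2), (cr z : ℕ) =
      ∑ v : Fin (2 * (m + 1) + 1), (v : ℕ) / 2 := by
    symm
    refine sum_bij' (fun v _ => ⟨(⟨v / 2, by omega⟩, ⟨v % 2, by omega⟩), by simp only; omega⟩)
      (fun z hz => ⟨2 * cr z + cc z, by
        have := z.2; have := (mem_filter.1 hz).2; simp only [cr, cc] at *; omega⟩) ?_ (by simp)
      ?_ ?_ fun v _ => rfl
    · intro v _; simp [cc]; omega
    · intro v _; apply Fin.ext; simp [cr, cc]; omega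
    · intro z hz
      have := (mem_filter.1 hz).2
      ext <;> simp [cr, cc] at * <;> omega
  have e₂ : ∑ z ∈ univ.filter (fun z : Cell (m + 2) => (cr z : ℕ) < 2), (cc z : ℕ) =
      ∑ z ∈ univ.filter (fun z : Cell (m + 2) => (cc z : ℕ) < 2), (cr z : ℕ) := by
    let sw : Cell (m + 2) ≃ Cell (m + 2) :=
      ⟨fun z => ⟨(z.1.2, z.1.1), by have := z.2; simp only; omega⟩,
        fun z => ⟨(z.1.2, z.1.1), by have := z.2; simp only; omega⟩,
        fun _ => rfl, fun _ => rfl⟩
    exact sum_equiv sw (fun z => by simp [sw, cr, cc]) fun _ _ => rfl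
  rw [e₀, e₂, e₁, ← sum_add_distrib]
  have h := sum_fin_rev (2 * (m + 1))
  rw [mul_sum] at h
  have key : ∀ v : Fin (2 * (m + 1) + 1),
      2 * ((v : ℕ) / 2 + (m + 1 - ((v : ℕ) + 1) / 2)) + 2 * (v : ℕ) =
        2 * ((v : ℕ) / 2 + (v : ℕ) / 2) + 2 * (m + 1) := fun v => by omega
  have := sum_congr (s₁ := (univ : Finset (Fin (2 * (m + 1) + 1)))) rfl fun v _ => key v
  simp only [sum_add_distrib, ← mul_sum] at this h ⊢
  omega

theorem rim₁ (m : ℕ) :
    ∑ z ∈ univ.filter (fun z => ((split₁ m) z).isRight = true), ((cr z : ℕ) + cc z) ≤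
      ∑ z ∈ univ.filter (fun z : Cell (m + 1) => (cc z : ℕ) < 1), (cr z : ℕ) +
        ∑ z ∈ univ.filter (fun z : Cell (m + 1) => (cr z : ℕ) < 1), (cc z : ℕ) := by
  classical
  have e₀ : ∑ z ∈ univ.filter (fun z => ((split₁ m) z).isRight = true), ((cr z : ℕ) + cc z) =
      ∑ v : Fin (m + 1), ((v : ℕ) + (m - (v : ℕ))) := by
    symm
    refine sum_bij' (fun v _ => (split₁ m).symm (.inr v))
      (fun z hz => ((split₁ m) z).getRight (mem_filter.1 hz).2) (by simp) (by simp) (by simp)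
      (fun z hz => by simp [Sum.inr_getRight]) fun v _ => rfl
  have e₁ : ∑ z ∈ univ.filter (fun z : Cell (m + 1) => (cc z : ℕ) < 1), (cr z : ℕ) =
      ∑ v : Fin (m + 1), (v : ℕ) := by
    symm
    refine sum_bij' (fun v _ => ⟨(v, ⟨0, by omega⟩), by simp only; omega⟩)
      (fun z _ => cr z) ?_ (by simp) ?_ ?_ fun v _ => rfl
    · intro v _; simp [cc]
    · intro v _; rfl
    · intro z hz
      have h := (mem_filter.1 hz).2
      ext
      · rfl
      · simp only [cc] at h
        simp only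
        omega
  have e₂ : ∑ z ∈ univ.filter (fun z : Cell (m + 1) => (cr z : ℕ) < 1), (cc z : ℕ) =
      ∑ z ∈ univ.filter (fun z : Cell (m + 1) => (cc z : ℕ) < 1), (cr z : ℕ) := by
    let sw : Cell (m + 1) ≃ Cell (m + 1) :=
      ⟨fun z => ⟨(z.1.2, z.1.1), by have := z.2; simp only; omega⟩,
        fun z => ⟨(z.1.2, z.1.1), by have := z.2; simp only; omega⟩,
        fun _ => rfl, fun _ => rfl⟩
    exact sum_equiv sw (fun z => by simp [sw, cr, cc]) fun _ _ => rfl
  rw [e₀, e₂, e₁, ← two_mul, sum_fin_rev m]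
  exact sum_le_sum fun v _ => by omega

end ForcingAux

open ForcingAux in
theorem mem_range_of_glue₂ {m : ℕ} {L L' : Cell m → Fin m} {p q : Fin (2 * (m + 1) + 1) → Fin 2}
    {g : Equiv.Perm (Cell (m + 2))} (h₁ : eR (m + 2) (glue₂ L p ∘ g) ≠ 0)
    (h₂ : eC (m + 2) (glue₂ L' q ∘ g) ≠ 0) : g ∈ (splitHom (split₂ m)).range := by
  refine mem_range (d := 2) (t := m) (split₂ m) ?_ ?_ ?_ ?_ (rim₂ m) h₁ h₂
  · intro z; simp only [glue₂, Function.comp_apply]
    rcases split₂ m z with a | b <;> simp <;> omega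
  · intro z; simp only [glue₂, Function.comp_apply]
    rcases split₂ m z with a | b <;> simp <;> omega
  · intro z; simp only [split₂, Equiv.coe_fn_mk, cr, cc]
    split <;> simp_all <;> omega
  · intro z; simp only [split₂, Equiv.coe_fn_mk, cr, cc]
    split <;> simp_all <;> omega

open ForcingAux in
theorem mem_range_of_glue₁ {m : ℕ} {L L' : Cell m → Fin m} {p q : Fin (m + 1) → Fin 1}
    {g : Equiv.Perm (Cell (m + 1))} (h₁ : eR (m + 1) (glue₁ L p ∘ g) ≠ 0)
    (h₂ : eC (m + 1) (glue₁ L' q ∘ g) ≠ 0) : g ∈ (splitHom (split₁ m)).range := by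
  refine mem_range (d := 1) (t := m) (split₁ m) ?_ ?_ ?_ ?_ (rim₁ m) h₁ h₂
  · intro z; simp only [glue₁, Function.comp_apply]
    cases split₁ m z <;> simp
  · intro z; simp only [glue₁, Function.comp_apply]
    cases split₁ m z <;> simp
  · intro z; simp only [split₁, Equiv.coe_fn_mk, cr, cc]
    split <;> simp_all <;> omega
  · intro z; simp only [split₁, Equiv.coe_fn_mk, cr, cc]
    split <;> simp_all <;> omega

end Vale.Agent.P197.Saxl
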