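import Vale.Agent.P197.Saxl.Defs
import Mathlib.GroupTheory.Perm.Finite

/-!
# P197: polytabloids on glued labellings

Evaluated on a glued labelling, the polytabloid of a staircase is, up to a sign, the product of the
smaller polytabloid and the rim tensor.
-/

namespace Vale.Agent.P197.Saxl

open Finset

section General

variable {α α' β γ : Type} [Fintype α] [DecidableEq α] [Fintype α'] [DecidableEq α']

/-- Relabelling the underlying set does not change a polytabloid. -/
theorem poly_comp_equiv (T : α ≃ α') (row : α' → β) (col : α' → γ) (L : α' → β) :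
    poly (row ∘ T) (col ∘ T) (L ∘ T) = poly row col L := by
  classical
  simp only [poly]
  refine Fintype.sum_equiv T.permCongr _ _ fun c => ?_
  rw [Equiv.Perm.sign_permCongr]
  have e₁ : ((col ∘ T) ∘ ⇑c = col ∘ T) ↔ col ∘ ⇑(T.permCongr c) = col := by
    constructor <;> intro h <;> funext z
    · simpa [Equiv.permCongr_apply] using congrFun h (T.symm z)
    · simpa [Equiv.permCongr_apply] using congrFun h (T z)
  have e₂ : ((row ∘ T) ∘ ⇑c = L ∘ T) ↔ row ∘ ⇑(T.permCongr c) = L := by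
    constructor <;> intro h <;> funext z
    · simpa [Equiv.permCongr_apply] using congrFun h (T.symm z)
    · simpa [Equiv.permCongr_apply] using congrFun h (T z)
  simp only [e₁, e₂]

theorem sign_splitHom {A B : Type} [Fintype A] [DecidableEq A] [Fintype B] [DecidableEq B]
    (e : α ≃ A ⊕ B) (g : Equiv.Perm A × Equiv.Perm B) :
    Equiv.Perm.sign (splitHom e g) = Equiv.Perm.sign g.1 * Equiv.Perm.sign g.2 := by
  rw [← Equiv.Perm.sign_sumCongr]
  exact Equiv.Perm.sign_permCongr e.symm (Equiv.sumCongr g.1 g.2)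

omit [Fintype α] [DecidableEq α] in
theorem splitHom_injective {A B : Type} (e : α ≃ A ⊕ B) : Function.Injective (splitHom e) := by
  intro g h hgh
  refine Prod.ext (Equiv.ext fun a => ?_) (Equiv.ext fun b => ?_)
  · simpa [splitHom_apply] using congrArg (fun q => e (q (e.symm (.inl a)))) hgh
  · simpa [splitHom_apply] using congrArg (fun q => e (q (e.symm (.inr b)))) hgh

/-- A polytabloid whose rows are separated by a splitting is a product. -/
theorem poly_split {A B βA βB γA γB : Type} [Fintype A] [DecidableEq A] [Fintype B]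
    [DecidableEq B] (e : α ≃ A ⊕ B) (c₀ : Equiv.Perm α) {row : α → β} {col : α → γ}
    {rowA : A → βA} {colA : A → γA} {rowB : B → βB} {colB : B → γB}
    {fA : βA → β} {fB : βB → β} (hfA : Function.Injective fA) (hfB : Function.Injective fB)
    (hdisj : ∀ x y, fA x ≠ fB y)
    {gA : γA → γ} {gB : γB → γ} (hgA : Function.Injective gA)
    (hgB : ∀ x y, gB (colB x) = gB (colB y) → colB x = colB y)
    (hcol : col = Sum.elim (gA ∘ colA) (gB ∘ colB) ∘ e) (hcol₀ : col ∘ c₀ = col)
    (hrow : row ∘ c₀ = Sum.elim (fA ∘ rowA) (fB ∘ rowB) ∘ e) (L : A → βA) (p : B → βB) :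
    poly row col (Sum.elim (fA ∘ L) (fB ∘ p) ∘ e) =
      ((Equiv.Perm.sign c₀ : ℤˣ) : ℤ) * (poly rowA colA L * poly rowB colB p) := by
  classical
  set G := Sum.elim (fA ∘ L) (fB ∘ p) ∘ ⇑e with hG
  have hc₀ : ∀ d : Equiv.Perm α, (col ∘ ⇑(c₀ * d) = col ∧ row ∘ ⇑(c₀ * d) = G) ↔
      (col ∘ ⇑d = col ∧ (Sum.elim (fA ∘ rowA) (fB ∘ rowB) ∘ ⇑e) ∘ ⇑d = G) := by
    intro d
    rw [Equiv.Perm.coe_mul, ← Function.comp_assoc, ← Function.comp_assoc, hcol₀, hrow]
  -- permutations that do not respect the splitting do not contribute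
  have hzero : ∀ c : Equiv.Perm α, c ∉ Set.range (fun g => c₀ * splitHom e g) →
      ¬(col ∘ ⇑c = col ∧ row ∘ ⇑c = G) := by
    intro c hc h
    obtain ⟨d, rfl⟩ : ∃ d, c = c₀ * d := ⟨c₀⁻¹ * c, by simp⟩
    have hd := ((hc₀ d).1 h).2
    obtain ⟨g, hg⟩ := Equiv.Perm.mem_sumCongrHom_range_of_perm_mapsTo_inl
      (σ := e.permCongr d) (fun z hz => by
        obtain ⟨a, rfl⟩ := hz
        have h' := congrFun hd (e.symm (.inl a))
        rcases he : e (d (e.symm (.inl a))) with x | y
        · exact ⟨x, by simp [Equiv.permCongr_apply, he]⟩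
        · simp only [hG, Function.comp_apply, he, Equiv.apply_symm_apply, Sum.elim_inr,
            Sum.elim_inl] at h'
          exact absurd h'.symm (hdisj _ _))
    refine hc ⟨g, ?_⟩
    have hd' : e.symm.permCongr (e.permCongr d) = d := by
      ext z; simp [Equiv.permCongr_apply]
    rw [← hd', ← hg]
    rfl
  have hcond : ∀ g : Equiv.Perm A × Equiv.Perm B,
      (col ∘ ⇑(c₀ * splitHom e g) = col ∧ row ∘ ⇑(c₀ * splitHom e g) = G) ↔
        (colA ∘ ⇑g.1 = colA ∧ rowA ∘ ⇑g.1 = L) ∧ colB ∘ ⇑g.2 = colB ∧ rowB ∘ ⇑g.2 = p := by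
    intro g
    rw [hc₀, hG, hcol]
    constructor
    · rintro ⟨h1, h2⟩
      refine ⟨⟨funext fun a => hgA ?_, funext fun a => hfA ?_⟩,
        funext fun b => hgB _ _ ?_, funext fun b => hfB ?_⟩
      · simpa [splitHom_apply] using congrFun h1 (e.symm (.inl a))
      · simpa [splitHom_apply] using congrFun h2 (e.symm (.inl a))
      · simpa [splitHom_apply] using congrFun h1 (e.symm (.inr b))
      · simpa [splitHom_apply] using congrFun h2 (e.symm (.inr b))
    · rintro ⟨⟨h1, h2⟩, h3, h4⟩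
      refine ⟨funext fun z => ?_, funext fun z => ?_⟩
      · rcases hz : e z with a | b
        · simpa [splitHom_apply, hz] using congrArg gA (congrFun h1 a)
        · simpa [splitHom_apply, hz] using congrArg gB (congrFun h3 b)
      · rcases hz : e z with a | b
        · simpa [splitHom_apply, hz] using congrArg fA (congrFun h2 a)
        · simpa [splitHom_apply, hz] using congrArg fB (congrFun h4 b)
  simp only [poly]
  rw [← Fintype.sum_of_injective (fun g => c₀ * splitHom e g)
    ((mul_right_injective c₀).comp (splitHom_injective e)) _ _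
    (fun c hc => if_neg (hzero c hc)) (fun g => rfl), sum_mul_sum, mul_sum, Fintype.sum_prod_type]
  refine sum_congr rfl fun a _ => ?_
  rw [mul_sum]
  refine sum_congr rfl fun b _ => ?_
  rw [if_congr (hcond (a, b)) rfl rfl, map_mul, sign_splitHom]
  split_ifs with h
  · simp only [Units.val_mul]
    push_cast
    rfl
  all_goals simp_all

end General

/-! ### The rim tensors -/

/-- The polytabloid of the pairs of consecutive points. -/
theorem poly_pairs (k : ℕ) (p : Fin (2 * k + 1) → Fin 2) :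
    poly (fun v : Fin (2 * k + 1) => (⟨v % 2, by omega⟩ : Fin 2)) (fun v => (v : ℕ) / 2) p =
      uR k p := by
  classical
  set row : Fin (2 * k + 1) → Fin 2 := fun v => ⟨v % 2, by omega⟩ with hrow
  set col : Fin (2 * k + 1) → ℕ := fun v => (v : ℕ) / 2 with hcol
  by_cases hp : p ⟨2 * k, by omega⟩ = 0 ∧
      ∀ i : Fin k, p ⟨2 * i, by omega⟩ ≠ p ⟨2 * i + 1, by omega⟩
  swap
  · have h1 : uR k p = 0 := by
      rcases not_and_or.1 hp with h | h
      · simp [uR, h]
      · push Not at h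
        obtain ⟨i, hi⟩ := h
        rw [uR, prod_eq_zero (mem_univ i) (by simp [eps, hi]), zero_mul]
    rw [h1]
    by_contra h
    obtain ⟨c, hc1, hc2⟩ := poly_ne_zero_support h
    subst hc2
    refine hp ⟨?_, fun i he => ?_⟩
    · have := congrFun hc1 ⟨2 * k, by omega⟩
      have := (c ⟨2 * k, by omega⟩).isLt
      simp only [hcol, hrow, Function.comp_apply] at *
      ext
      simp only [Fin.val_zero]
      omega
    · have h2 := congrFun hc1 ⟨2 * i, by omega⟩
      have h3 := congrFun hc1 ⟨2 * i + 1, by omega⟩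
      have h4 : (c ⟨2 * i, by omega⟩ : ℕ) ≠ c ⟨2 * i + 1, by omega⟩ := fun e => by
        have := congrArg Fin.val (c.injective (Fin.ext e))
        simp at this
      simp only [hcol, hrow, Function.comp_apply, Fin.ext_iff] at *
      omega
  obtain ⟨N, hN⟩ : ∃ N, (univ.filter fun i : Fin k => p ⟨2 * i, by omega⟩ ≠ 0).card = N :=
    ⟨_, rfl⟩
  have hval : uR k p = (-1) ^ N := by
    rw [uR, if_pos hp.1, mul_one, ← hN, ← prod_const, prod_filter]
    refine prod_congr rfl fun i _ => ?_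
    have := hp.2 i
    by_cases h : p ⟨2 * i, by omega⟩ = 0
    · simp [eps, h] at this ⊢
      exact this
    · simp [eps, h, this]
  rw [hval]
  clear hval
  induction N generalizing p with
  | zero =>
    have hp0 : p = row := by
      funext v
      rw [card_eq_zero, filter_eq_empty_iff] at hN
      rcases lt_or_ge ((v : ℕ) / 2) k with h | h
      · have h0 := hN (mem_univ (⟨v / 2, h⟩ : Fin k))
        have h1 := hp.2 ⟨v / 2, h⟩
        simp only [not_not] at h0
        rcases Nat.mod_two_eq_zero_or_one v with hv | hv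
        · rw [show v = ⟨2 * (v / 2), by omega⟩ from Fin.ext (by simp only; omega), h0]
          ext
          simp [hrow, Nat.mul_mod_right]
        · rw [h0] at h1
          rw [show v = ⟨2 * (v / 2) + 1, by omega⟩ from Fin.ext (by simp only; omega)]
          ext
          simp only [hrow, ne_eq, Fin.ext_iff, Fin.val_zero] at *
          omega
      · rw [show v = ⟨2 * k, by omega⟩ from Fin.ext (by simp only; omega), hp.1]
        ext
        simp [hrow, Nat.mul_mod_right]
    rw [hp0, pow_zero]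
    refine poly_self fun x y h => ?_
    simp only [hcol, hrow, Prod.mk.injEq, Fin.ext_iff] at h
    exact Fin.ext (by omega)
  | succ N ih =>
    obtain ⟨i, hi⟩ := card_pos.1 (show 0 < (univ.filter fun i : Fin k =>
      p ⟨2 * i, by omega⟩ ≠ 0).card by omega)
    set g := Equiv.swap (⟨2 * i, by omega⟩ : Fin (2 * k + 1)) ⟨2 * i + 1, by omega⟩ with hg
    have hcg : col ∘ g = col := by
      funext v
      simp only [hg, Function.comp_apply, Equiv.swap_apply_def]
      split_ifs with h1 h2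
      · subst h1; simp only [hcol]; omega
      · subst h2; simp only [hcol]; omega
      · rfl
    have hev : ∀ l : Fin k, l ≠ i →
        g ⟨2 * l, by omega⟩ = ⟨2 * l, by omega⟩ ∧
          g ⟨2 * l + 1, by omega⟩ = ⟨2 * l + 1, by omega⟩ := by
      intro l hl
      have : (l : ℕ) ≠ i := fun e => hl (Fin.ext e)
      refine ⟨Equiv.swap_apply_of_ne_of_ne ?_ ?_, Equiv.swap_apply_of_ne_of_ne ?_ ?_⟩ <;>
        simp only [ne_eq, Fin.ext_iff] <;> omega
    have hp' : (p ∘ g) ⟨2 * k, by omega⟩ = 0 ∧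
        ∀ l : Fin k, (p ∘ g) ⟨2 * l, by omega⟩ ≠ (p ∘ g) ⟨2 * l + 1, by omega⟩ := by
      refine ⟨?_, fun l => ?_⟩
      · rw [Function.comp_apply, hg, Equiv.swap_apply_of_ne_of_ne, hp.1] <;>
          simp only [ne_eq, Fin.ext_iff] <;> omega
      · rcases eq_or_ne l i with rfl | hl
        · simp only [hg, Function.comp_apply, Equiv.swap_apply_left, Equiv.swap_apply_right]
          exact (hp.2 l).symm
        · simp only [Function.comp_apply, (hev l hl).1, (hev l hl).2]
          exact hp.2 l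
    have hflip : p (g ⟨2 * i, by omega⟩) = 0 := by
      have := hp.2 i
      simp only [mem_filter, mem_univ, true_and] at hi
      rw [hg, Equiv.swap_apply_left]
      simp only [ne_eq, Fin.ext_iff, Fin.val_zero] at *
      omega
    have hN' : (univ.filter fun l : Fin k => (p ∘ g) ⟨2 * l, by omega⟩ ≠ 0).card = N := by
      have e : (univ.filter fun l : Fin k => (p ∘ g) ⟨2 * l, by omega⟩ ≠ 0) =
          (univ.filter fun l : Fin k => p ⟨2 * l, by omega⟩ ≠ 0).erase i := by
        ext l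
        rcases eq_or_ne l i with rfl | hl
        · simp [hflip]
        · simp [hl, (hev l hl).1]
      rw [e, card_erase_of_mem hi, hN]
      rfl
    have := congrFun (act_poly_sign row hcg) p
    rw [act_apply, ih (p ∘ g) hp' hN', hg, Equiv.Perm.sign_swap (by simp)] at this
    simp at this
    rw [pow_succ, this]
    ring

theorem eps_swap (a b : Fin 2) : eps a b = -eps b a := by
  fin_cases a <;> fin_cases b <;> simp [eps]

theorem uR_rev (k : ℕ) (p : Fin (2 * k + 1) → Fin 2) :
    uR k (p ∘ Fin.rev) = (-1) ^ k * uC k p := by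
  rw [uR, uC, ← mul_assoc]
  refine congrArg₂ _ ?_ ?_
  · rw [← Fintype.prod_equiv Fin.revPerm (fun j : Fin k =>
      eps ((p ∘ Fin.rev) ⟨2 * (Fin.rev j : Fin k), by omega⟩)
        ((p ∘ Fin.rev) ⟨2 * (Fin.rev j : Fin k) + 1, by omega⟩)) _ (fun j => rfl)]
    rw [show ((-1 : ℂ)) ^ k = ∏ _j : Fin k, (-1 : ℂ) by simp, ← prod_mul_distrib]
    refine prod_congr rfl fun j _ => ?_
    rw [eps_swap, neg_one_mul]
    simp only [Function.comp_apply]
    congr 3 <;> ext <;> simp only [Fin.val_rev] <;> omega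
  · simp only [Function.comp_apply]
    congr 3
    ext
    simp only [Fin.val_rev]
    omega

/-! ### The staircases -/

/-- Transposition of the cells. -/
def tr (n : ℕ) : Equiv.Perm (Cell n) where
  toFun z := ⟨(z.1.2, z.1.1), by have := z.2; simp only; omega⟩
  invFun z := ⟨(z.1.2, z.1.1), by have := z.2; simp only; omega⟩
  left_inv _ := rfl
  right_inv _ := rfl

theorem eC_eq_eR_tr (n : ℕ) (L : Cell n → Fin n) : eC n L = eR n (L ∘ tr n) :=
  poly_comp_equiv (tr n) cc cr (L ∘ tr n)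

theorem glue₂_tr {m : ℕ} (L : Cell m → Fin m) (p : Fin (2 * (m + 1) + 1) → Fin 2) :
    glue₂ L p ∘ tr (m + 2) = glue₂ (L ∘ tr m) (p ∘ Fin.rev) := by
  funext z
  obtain ⟨y, rfl⟩ := (split₂ m).symm.surjective z
  have h : split₂ m (tr (m + 2) ((split₂ m).symm y)) = y.map (tr m) Fin.rev := by
    rw [← Equiv.eq_symm_apply]
    rcases y with ⟨⟨⟨a, ha⟩, ⟨b, hb⟩⟩, hab⟩ | ⟨v, hv⟩
    · rfl
    · apply Subtype.ext
      simp only [split₂, tr, Sum.map_inr, Equiv.coe_fn_symm_mk, Equiv.coe_fn_mk, Sum.elim_inr,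
        Prod.mk.injEq, Fin.ext_iff, Fin.val_rev]
      omega
  simp only [glue₂, Function.comp_apply, h, Equiv.apply_symm_apply]
  cases y <;> rfl

theorem glue₁_tr {m : ℕ} (L : Cell m → Fin m) (p : Fin (m + 1) → Fin 1) :
    glue₁ L p ∘ tr (m + 1) = glue₁ (L ∘ tr m) (p ∘ Fin.rev) := by
  funext z
  obtain ⟨y, rfl⟩ := (split₁ m).symm.surjective z
  have h : split₁ m (tr (m + 1) ((split₁ m).symm y)) = y.map (tr m) Fin.rev := by
    rw [← Equiv.eq_symm_apply]
    rcases y with ⟨⟨⟨a, ha⟩, ⟨b, hb⟩⟩, hab⟩ | ⟨v, hv⟩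
    · rfl
    · apply Subtype.ext
      simp only [split₁, tr, Sum.map_inr, Equiv.coe_fn_symm_mk, Equiv.coe_fn_mk, Sum.elim_inr,
        Prod.mk.injEq, Fin.ext_iff, Fin.val_rev]
      omega
  simp only [glue₁, Function.comp_apply, h, Equiv.apply_symm_apply]
  cases y <;> rfl

/-- The splitting off of the first two columns. -/
def colSplit₂ (m : ℕ) : Cell (m + 2) ≃ Cell m ⊕ Fin (2 * (m + 1) + 1) where
  toFun z :=
    if h : (2 : ℕ) ≤ z.1.2 then
      .inl ⟨(⟨z.1.1, by have := z.2; omega⟩, ⟨z.1.2 - 2, by have := z.2; omega⟩),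
        by have := z.2; simp only; omega⟩
    else .inr ⟨2 * z.1.1 + z.1.2, by have := z.2; omega⟩
  invFun := Sum.elim
    (fun z => ⟨(⟨z.1.1, by omega⟩, ⟨z.1.2 + 2, by omega⟩), by have := z.2; simp only; omega⟩)
    (fun v => ⟨(⟨v / 2, by omega⟩, ⟨v % 2, by omega⟩), by simp only; omega⟩)
  left_inv := by
    rintro ⟨⟨⟨i, hi⟩, ⟨j, hj⟩⟩, hij⟩
    simp only at hij ⊢
    split
    · simp only [Sum.elim_inl, Subtype.mk.injEq, Prod.mk.injEq, Fin.mk.injEq, true_and]
      omega
    · simp only [Sum.elim_inr, Subtype.mk.injEq, Prod.mk.injEq, Fin.mk.injEq]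
      omega
  right_inv := by
    rintro (⟨⟨⟨i, hi⟩, ⟨j, hj⟩⟩, hij⟩ | ⟨v, hv⟩)
    · simp only [Sum.elim_inl]
      refine (dif_pos (show 2 ≤ j + 2 by omega)).trans ?_
      simp
    · simp only [Sum.elim_inr]
      refine (dif_neg (show ¬ 2 ≤ v % 2 by omega)).trans ?_
      simp only [Sum.inr.injEq, Fin.mk.injEq]
      omega

/-- The splitting off of the first column. -/
def colSplit₁ (m : ℕ) : Cell (m + 1) ≃ Cell m ⊕ Fin (m + 1) where
  toFun z :=
    if h : (1 : ℕ) ≤ z.1.2 then
      .inl ⟨(⟨z.1.1, by have := z.2; omega⟩, ⟨z.1.2 - 1, by have := z.2; omega⟩),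
        by have := z.2; simp only; omega⟩
    else .inr z.1.1
  invFun := Sum.elim
    (fun z => ⟨(⟨z.1.1, by omega⟩, ⟨z.1.2 + 1, by omega⟩), by have := z.2; simp only; omega⟩)
    (fun v => ⟨(v, ⟨0, by omega⟩), by simp only; omega⟩)
  left_inv := by
    rintro ⟨⟨⟨i, hi⟩, ⟨j, hj⟩⟩, hij⟩
    simp only at hij ⊢
    split
    · simp only [Sum.elim_inl, Subtype.mk.injEq, Prod.mk.injEq, Fin.mk.injEq, true_and]
      omega
    · simp only [Sum.elim_inr, Subtype.mk.injEq, Prod.mk.injEq, Fin.mk.injEq, true_and]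
      omega
  right_inv := by
    rintro (⟨⟨⟨i, hi⟩, ⟨j, hj⟩⟩, hij⟩ | ⟨v, hv⟩)
    · simp only [Sum.elim_inl]
      refine (dif_pos (show 1 ≤ j + 1 by omega)).trans ?_
      simp
    · simp only [Sum.elim_inr]
      exact dif_neg (show ¬ 1 ≤ 0 by omega)

theorem eR_glue₂ (m : ℕ) : ∃ s : ℂ, s ≠ 0 ∧ ∀ L p,
    eR (m + 2) (glue₂ (m := m) L p) = s * (eR m L * uR (m + 1) p) := by
  set c₀ : Equiv.Perm (Cell (m + 2)) := (split₂ m).trans (colSplit₂ m).symm with hc₀
  refine ⟨((Equiv.Perm.sign c₀ : ℤˣ) : ℤ), by simp, fun L p => ?_⟩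
  rw [← poly_pairs]
  refine poly_split (split₂ m) c₀ (row := cc) (col := cr) (rowA := cc) (colA := cr)
    (fA := fun x : Fin m => ⟨x + 2, by omega⟩) (fB := fun y : Fin 2 => ⟨y, by omega⟩)
    (gA := fun x : Fin m => ⟨x, by omega⟩)
    (gB := fun x : ℕ => if h : x < m + 2 then ⟨x, h⟩ else 0) ?_ ?_ ?_ ?_ ?_ ?_ ?_ ?_ L p
  · exact fun a b h => Fin.ext (by simpa using h)
  · exact fun a b h => Fin.ext (by simpa using h)
  · exact fun a b h => by have := congrArg Fin.val h; simp only at this; omega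
  · exact fun a b h => Fin.ext (by simpa using h)
  · intro x y h
    have hx : (x : ℕ) / 2 < m + 2 := by omega
    have hy : (y : ℕ) / 2 < m + 2 := by omega
    simpa [hx, hy, Fin.ext_iff] using h
  · funext z
    obtain ⟨y, rfl⟩ := (split₂ m).symm.surjective z
    rcases y with z | v
    · simp only [Function.comp_apply, Equiv.apply_symm_apply, Sum.elim_inl]
      rfl
    · simp only [Function.comp_apply, Equiv.apply_symm_apply, Sum.elim_inr]
      rw [dif_pos (show (v : ℕ) / 2 < m + 2 by omega)]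
      rfl
  · funext z
    obtain ⟨y, rfl⟩ := (split₂ m).symm.surjective z
    rcases y with z | v <;> simp [hc₀] <;> simp [split₂, colSplit₂, cr]
  · funext z
    obtain ⟨y, rfl⟩ := (split₂ m).symm.surjective z
    rcases y with z | v <;> simp [hc₀] <;> simp [colSplit₂, cc]

theorem eC_glue₂ (m : ℕ) : ∃ s : ℂ, s ≠ 0 ∧ ∀ L p,
    eC (m + 2) (glue₂ (m := m) L p) = s * (eC m L * uC (m + 1) p) := by
  obtain ⟨s, hs, h⟩ := eR_glue₂ m
  refine ⟨s * (-1) ^ (m + 1), mul_ne_zero hs (pow_ne_zero _ (by norm_num)), fun L p => ?_⟩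
  rw [eC_eq_eR_tr, glue₂_tr, h, eC_eq_eR_tr, uR_rev]
  ring

theorem eR_glue₁ (m : ℕ) : ∃ s : ℂ, s ≠ 0 ∧ ∀ L p,
    eR (m + 1) (glue₁ (m := m) L p) = s * eR m L := by
  set c₀ : Equiv.Perm (Cell (m + 1)) := (split₁ m).trans (colSplit₁ m).symm with hc₀
  refine ⟨((Equiv.Perm.sign c₀ : ℤˣ) : ℤ), by simp, fun L p => ?_⟩
  have h1 : poly (fun _ : Fin (m + 1) => (0 : Fin 1)) (id : Fin (m + 1) → Fin (m + 1)) p = 1 := by
    rw [Subsingleton.elim p (fun _ => 0)]
    exact poly_self fun a b h => congrArg Prod.snd h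
  rw [← mul_one (eR m L), ← h1]
  refine poly_split (split₁ m) c₀ (row := cc) (col := cr) (rowA := cc) (colA := cr)
    (fA := fun x : Fin m => ⟨x + 1, by omega⟩) (fB := fun y : Fin 1 => ⟨y, by omega⟩)
    (gA := fun x : Fin m => ⟨x, by omega⟩) (gB := id) ?_ ?_ ?_ ?_ ?_ ?_ ?_ ?_ L p
  · exact fun a b h => Fin.ext (by simpa using h)
  · exact fun a b _ => Subsingleton.elim a b
  · exact fun a b h => by have := congrArg Fin.val h; simp only at this; omega
  · exact fun a b h => Fin.ext (by simpa using h)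
  · exact fun x y h => h
  · funext z
    obtain ⟨y, rfl⟩ := (split₁ m).symm.surjective z
    rcases y with z | v <;>
      simp only [Function.comp_apply, Equiv.apply_symm_apply, Sum.elim_inl, Sum.elim_inr] <;> rfl
  · funext z
    obtain ⟨y, rfl⟩ := (split₁ m).symm.surjective z
    rcases y with z | v <;> simp [hc₀] <;> simp [split₁, colSplit₁, cr]
  · funext z
    obtain ⟨y, rfl⟩ := (split₁ m).symm.surjective z
    rcases y with z | v <;> simp [hc₀] <;> simp [colSplit₁, cc]

theorem eC_glue₁ (m : ℕ) : ∃ s : ℂ, s ≠ 0 ∧ ∀ L p,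
    eC (m + 1) (glue₁ (m := m) L p) = s * eC m L := by
  obtain ⟨s, hs, h⟩ := eR_glue₁ m
  exact ⟨s, hs, fun L p => by rw [eC_eq_eR_tr, glue₁_tr, h, eC_eq_eR_tr]⟩

end Vale.Agent.P197.Saxl
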