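import Vale.Agent.P197.Saxl.Tensor
import Mathlib.RepresentationTheory.Irreducible
import Mathlib.Analysis.Complex.Basic

/-!
# P197: the Specht module of the staircase is irreducible

James's argument in characteristic zero: the column antisymmetriser maps the module onto the line
of the polytabloid, and the bilinear pairing is positive on real vectors.
-/

namespace Vale.Agent.P197.Saxl

open Finset

namespace Irred

variable {m : ℕ}

/-- The vectors of the module live on labellings with the content of the staircase. -/
theorem exists_perm_of_ne_zero {x : Fn (Cell m) (Fin m)} (hx : x ∈ staircaseSpecht m)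
    {L : Cell m → Fin m} (hL : x L ≠ 0) : ∃ u : Equiv.Perm (Cell m), L = cr ∘ ⇑u := by
  revert L
  induction hx using Submodule.span_induction with
  | mem y hy =>
    intro L hL
    obtain ⟨g, rfl⟩ := hy
    obtain ⟨c, -, hc⟩ := poly_ne_zero_support (row := cr) (col := cc) (L := L ∘ ⇑g) hL
    refine ⟨c * g⁻¹, funext fun z => ?_⟩
    have := congrFun hc (g⁻¹ z)
    simpa using this.symm
  | zero => intro L hL; exact absurd rfl hL
  | add y z _ _ hy hz =>
    intro L hL
    by_cases h : y L = 0
    · exact hz (fun h' => hL (by simp [h, h']))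
    · exact hy h
  | smul a y _ hy =>
    intro L hL
    exact hy (fun h' => hL (by simp [h']))

/-- A labelling with the content of the staircase and injective on columns is a column permutation
of the rows. -/
theorem exists_colPerm {L : Cell m → Fin m} (u : Equiv.Perm (Cell m)) (hu : L = cr ∘ ⇑u)
    (hinj : ∀ z z', cc z = cc z' → L z = L z' → z = z') :
    ∃ c : Equiv.Perm (Cell m), cc ∘ ⇑c = cc ∧ cr ∘ ⇑c = L := by
  classical
  have bound : ∀ j : ℕ, ∀ z, (cc z : ℕ) = j → (L z : ℕ) + j < m := by
    intro j
    induction j using Nat.strong_induction_on with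
    | _ j IH =>
      intro z hz
      by_contra hlt
      have hge : m ≤ (L z : ℕ) + j := not_lt.1 hlt
      have ex : ∀ w : {w : Cell m // cr w = L z},
          ∃ y, cc y = cc w.1 ∧ L y = L z := by
        rintro ⟨w, hw⟩
        have hw2 : (cr w : ℕ) + cc w < m := w.2
        rw [hw] at hw2
        have hlt : ∀ y : {y : Cell m // cc y = cc w}, (L y.1 : ℕ) + cc w < m := fun y =>
          IH _ (by omega) y.1 (by rw [y.2])
        let h : {y : Cell m // cc y = cc w} → {y : Cell m // cc y = cc w} :=
          fun y => ⟨⟨(L y.1, cc w), hlt y⟩, rfl⟩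
        have h_inj : Function.Injective h := fun y y' e =>
          Subtype.ext (hinj _ _ (y.2.trans y'.2.symm)
            (congrArg (fun t : {y : Cell m // cc y = cc w} => cr t.1) e))
        obtain ⟨y, hy⟩ := Finite.injective_iff_surjective.1 h_inj ⟨w, rfl⟩
        exact ⟨y.1, y.2, (congrArg (fun t : {y : Cell m // cc y = cc w} => cr t.1) hy).trans hw⟩
      choose f hf₁ hf₂ using ex
      let F : {w : Cell m // cr w = L z} ⊕ Unit → {y : Cell m // L y = L z} :=
        Sum.elim (fun w => ⟨f w, hf₂ w⟩) (fun _ => ⟨z, rfl⟩)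
      have lt : ∀ w : {w : Cell m // cr w = L z}, (cc (f w) : ℕ) < j := fun w => by
        have hw2 : (cr w.1 : ℕ) + cc w.1 < m := w.1.2
        rw [w.2] at hw2
        rw [hf₁ w]
        omega
      have F_inj : Function.Injective F := by
        rintro (w | w) (w' | w') e
        · have e' : f w = f w' := congrArg Subtype.val e
          have := congrArg cc e'
          rw [hf₁, hf₁] at this
          exact congrArg Sum.inl (Subtype.ext (Subtype.ext (Prod.ext (w.2.trans w'.2.symm) this)))
        · have e' : f w = z := congrArg Subtype.val e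
          have := lt w
          rw [e', hz] at this
          exact absurd this (lt_irrefl j)
        · have e' : z = f w' := congrArg Subtype.val e
          have := lt w'
          rw [← e', hz] at this
          exact absurd this (lt_irrefl j)
        · rfl
      have h1 := Fintype.card_le_of_injective F F_inj
      have h2 : Fintype.card {y : Cell m // L y = L z} = Fintype.card {w : Cell m // cr w = L z} :=
        Fintype.card_congr (u.subtypeEquiv fun y => by simp [hu])
      simp only [Fintype.card_sum, Fintype.card_unit] at h1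
      omega
  let c : Cell m → Cell m := fun z => ⟨(L z, cc z), bound _ z rfl⟩
  have c_inj : Function.Injective c := fun y y' e =>
    have e₁ := congrArg cc e
    have e₂ := congrArg cr e
    hinj y y' e₁ e₂
  exact ⟨Equiv.ofBijective c (Finite.injective_iff_bijective.1 c_inj), rfl, rfl⟩

/-- The signed sum over column permutations. -/
noncomputable def colSum (x : Fn (Cell m) (Fin m)) : Fn (Cell m) (Fin m) :=
  ∑ c : Equiv.Perm (Cell m),
    if cc ∘ ⇑c = cc then (((Equiv.Perm.sign c : ℤˣ) : ℤ) : ℂ) • act c x else 0

theorem colSum_apply (x : Fn (Cell m) (Fin m)) (L : Cell m → Fin m) :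
    colSum x L = ∑ c : Equiv.Perm (Cell m),
      if cc ∘ ⇑c = cc then (((Equiv.Perm.sign c : ℤˣ) : ℤ) : ℂ) * x (L ∘ ⇑c) else 0 := by
  simp only [colSum, Finset.sum_apply]
  refine Finset.sum_congr rfl fun c _ => ?_
  split <;> simp [act_apply]

theorem pair_eC (x : Fn (Cell m) (Fin m)) :
    pair x (eC m) = ∑ c : Equiv.Perm (Cell m),
      if cc ∘ ⇑c = cc then (((Equiv.Perm.sign c : ℤˣ) : ℤ) : ℂ) * x (cr ∘ ⇑c) else 0 := by
  classical
  simp only [pair, eC, poly]
  simp only [Finset.mul_sum]
  rw [Finset.sum_comm]
  refine Finset.sum_congr rfl fun c _ => ?_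
  by_cases hc : cc ∘ ⇑c = cc
  · simp [hc, mul_ite, mul_comm]
  · simp [hc]

theorem eC_colPerm {c : Equiv.Perm (Cell m)} (hc : cc ∘ ⇑c = cc) :
    eC m (cr ∘ ⇑c) = (((Equiv.Perm.sign c : ℤˣ) : ℤ) : ℂ) := by
  have h := congrFun (act_poly_sign cr hc) cr
  rw [act_apply, Pi.smul_apply, poly_self (row := cr) (col := cc) (fun z z' e => Subtype.ext e), zsmul_one] at h
  exact h

theorem colSum_eq {x : Fn (Cell m) (Fin m)} (hx : x ∈ staircaseSpecht m) :
    colSum x = pair x (eC m) • eC m := by
  classical
  funext L
  rw [colSum_apply, Pi.smul_apply, smul_eq_mul]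
  by_cases hL : ∃ c₀ : Equiv.Perm (Cell m), cc ∘ ⇑c₀ = cc ∧ cr ∘ ⇑c₀ = L
  · obtain ⟨c₀, h₀, rfl⟩ := hL
    rw [eC_colPerm h₀, pair_eC, Finset.sum_mul]
    refine Fintype.sum_equiv (Equiv.mulLeft c₀) _ _ fun c => ?_
    have e : cc ∘ ⇑(c₀ * c) = cc ∘ ⇑c := by
      rw [Equiv.Perm.coe_mul, ← Function.comp_assoc, h₀]
    simp only [Equiv.coe_mulLeft, e, Equiv.Perm.sign_mul]
    split
    · rw [Equiv.Perm.coe_mul, Function.comp_assoc]
      rcases Int.units_eq_one_or (Equiv.Perm.sign c₀) with h | h <;> simp [h]
    · simp
  · have heC : eC m L = 0 := by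
      by_contra h
      exact hL (poly_ne_zero_support h)
    rw [heC, mul_zero]
    by_cases hrep : ∃ z z', cc z = cc z' ∧ L z = L z' ∧ z ≠ z'
    · obtain ⟨z, z', hcc, hLz, hne⟩ := hrep
      have hswapL : L ∘ ⇑(Equiv.swap z z') = L := by
        funext y
        rcases eq_or_ne y z with rfl | h1
        · simp [hLz]
        rcases eq_or_ne y z' with rfl | h2
        · simp [hLz]
        simp [Equiv.swap_apply_of_ne_of_ne h1 h2]
      have hswapc : cc ∘ ⇑(Equiv.swap z z') = cc := by
        funext y
        rcases eq_or_ne y z with rfl | h1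
        · simp [hcc]
        rcases eq_or_ne y z' with rfl | h2
        · simp [hcc]
        simp [Equiv.swap_apply_of_ne_of_ne h1 h2]
      set S := ∑ c : Equiv.Perm (Cell m),
        if cc ∘ ⇑c = cc then (((Equiv.Perm.sign c : ℤˣ) : ℤ) : ℂ) * x (L ∘ ⇑c) else 0 with hS
      have hneg : S = -S := by
        rw [hS, ← Finset.sum_neg_distrib]
        refine Fintype.sum_equiv (Equiv.mulLeft (Equiv.swap z z')) _ _ fun c => ?_
        have e : cc ∘ ⇑(Equiv.swap z z' * c) = cc ∘ ⇑c := by
          rw [Equiv.Perm.coe_mul, ← Function.comp_assoc, hswapc]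
        have e' : L ∘ ⇑(Equiv.swap z z' * c) = L ∘ ⇑c := by
          rw [Equiv.Perm.coe_mul, ← Function.comp_assoc, hswapL]
        simp only [Equiv.coe_mulLeft, e, e', Equiv.Perm.sign_mul, Equiv.Perm.sign_swap hne]
        split <;> simp
      linear_combination hneg / 2
    · push Not at hrep
      refine Finset.sum_eq_zero fun c _ => ?_
      by_cases hx0 : x (L ∘ ⇑c) = 0
      · simp [hx0]
      obtain ⟨u, hu⟩ := exists_perm_of_ne_zero hx hx0
      refine absurd (exists_colPerm (u * c⁻¹) (funext fun y => ?_) hrep) hL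
      simpa using congrFun hu (c⁻¹ y)

theorem conj_eC (L : Cell m → Fin m) : (starRingEnd ℂ) (eC m L) = eC m L := by
  simp only [eC, poly, map_sum]
  refine Finset.sum_congr rfl fun c _ => ?_
  split <;> simp

theorem conj_mem {x : Fn (Cell m) (Fin m)} (hx : x ∈ staircaseSpecht m) :
    (fun L => (starRingEnd ℂ) (x L)) ∈ staircaseSpecht m := by
  induction hx using Submodule.span_induction with
  | mem y hy =>
    obtain ⟨g, rfl⟩ := hy
    have : (fun L => (starRingEnd ℂ) (act g (eC m) L)) = act g (eC m) :=
      funext fun L => conj_eC _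
    rw [this]
    exact Submodule.subset_span ⟨g, rfl⟩
  | zero =>
    have : (fun L : Cell m → Fin m => (starRingEnd ℂ) ((0 : Fn (Cell m) (Fin m)) L)) = 0 :=
      funext fun L => map_zero _
    rw [this]
    exact zero_mem _
  | add y z _ _ hy hz =>
    have : (fun L => (starRingEnd ℂ) ((y + z) L)) =
        (fun L => (starRingEnd ℂ) (y L)) + (fun L => (starRingEnd ℂ) (z L)) :=
      funext fun L => map_add _ _ _
    rw [this]
    exact add_mem hy hz
  | smul a y _ hy =>
    have : (fun L => (starRingEnd ℂ) ((a • y) L)) =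
        (starRingEnd ℂ) a • fun L => (starRingEnd ℂ) (y L) :=
      funext fun L => map_mul _ _ _
    rw [this]
    exact Submodule.smul_mem _ _ hy

theorem pair_act (g : Equiv.Perm (Cell m)) (x y : Fn (Cell m) (Fin m)) :
    pair x (act g y) = pair (act g⁻¹ x) y := by
  simp only [pair, act_apply]
  refine Fintype.sum_equiv (Equiv.arrowCongr g.symm (Equiv.refl _)) _ _ fun L => ?_
  simp [Equiv.arrowCongr, Function.comp_def]

/-- An invariant subspace of the module is zero or everything. -/
theorem invariant_eq (U : Submodule ℂ (Fn (Cell m) (Fin m))) (hU : U ≤ staircaseSpecht m)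
    (hinv : ∀ g, ∀ x ∈ U, act g x ∈ U) : U = ⊥ ∨ staircaseSpecht m ≤ U := by
  classical
  by_cases h : ∃ x ∈ U, pair x (eC m) ≠ 0
  · right
    obtain ⟨x, hx, hne⟩ := h
    have hsum : colSum x ∈ U := by
      refine Submodule.sum_mem _ fun c _ => ?_
      split
      · exact U.smul_mem _ (hinv c x hx)
      · exact U.zero_mem
    rw [colSum_eq (hU hx)] at hsum
    have heC : eC m ∈ U := (Submodule.smul_mem_iff U hne).1 hsum
    exact Submodule.span_le.2 fun _ ⟨g, hg⟩ => hg ▸ hinv g _ heC
  · left
    push Not at h
    rw [Submodule.eq_bot_iff]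
    intro x hx
    have horth : ∀ y ∈ staircaseSpecht m, pair x y = 0 := by
      intro y hy
      induction hy using Submodule.span_induction with
      | mem y hy =>
        obtain ⟨g, rfl⟩ := hy
        rw [pair_act]
        exact h _ (hinv _ x hx)
      | zero => simp [pair]
      | add y z _ _ hy hz =>
        simp only [pair, Pi.add_apply, mul_add, Finset.sum_add_distrib] at hy hz ⊢
        rw [hy, hz, add_zero]
      | smul a y _ hy =>
        simp only [pair, Pi.smul_apply, smul_eq_mul, mul_left_comm _ a, ← Finset.mul_sum] at hy ⊢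
        rw [hy, mul_zero]
    have h0 := horth _ (conj_mem (hU hx))
    simp only [pair, Complex.mul_conj] at h0
    rw [← Complex.ofReal_sum, Complex.ofReal_eq_zero,
      Finset.sum_eq_zero_iff_of_nonneg fun L _ => Complex.normSq_nonneg _] at h0
    exact funext fun L => Complex.normSq_eq_zero.1 (h0 L (Finset.mem_univ _))

end Irred

open Irred

/-- The Specht module of the staircase is irreducible. -/
theorem isIrreducible_staircaseRep (m : ℕ) : (staircaseRep m).IsIrreducible := by
  have hne : staircaseSpecht m ≠ ⊥ := fun h => by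
    have h1 : eC m = 0 := by simpa [h] using eC_mem m
    have h2 : eC m cr = 1 := poly_self fun z z' e => Subtype.ext e
    rw [h1] at h2
    exact zero_ne_one h2
  have : Nontrivial (staircaseSpecht m) := Submodule.nontrivial_iff_ne_bot.2 hne
  have hnt : Nontrivial (Subrepresentation (staircaseRep m)) :=
    ⟨⊥, ⊤, fun h => bot_ne_top (α := Submodule ℂ (staircaseSpecht m))
      (congrArg Subrepresentation.toSubmodule h)⟩
  refine @IsSimpleOrder.mk _ _ _ hnt fun K => ?_
  rcases invariant_eq (K.toSubmodule.map (staircaseSpecht m).subtype)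
    (Submodule.map_subtype_le _ _) (by
      rintro g _ ⟨v, hv, rfl⟩
      exact ⟨staircaseRep m g v, K.apply_mem_toSubmodule g hv, rfl⟩) with h | h
  · left
    refine Subrepresentation.toSubmodule_injective ?_
    exact Submodule.map_injective_of_injective (staircaseSpecht m).injective_subtype
      (h.trans (Submodule.map_bot _).symm)
  · right
    refine Subrepresentation.toSubmodule_injective ?_
    refine eq_top_iff.2 fun v _ => ?_
    obtain ⟨w, hw, e⟩ := h v.2
    rwa [← Subtype.ext (a1 := w) (a2 := v) e]

end Vale.Agent.P197.Saxl
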