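import Vale.Agent.P197.Saxl.Defs
import Mathlib.RingTheory.Nakayama
import Mathlib.Data.ZMod.Basic

/-!
# P197: the parity base

A nonzero vector on which the column group of the staircase acts by the sign detects the pair of
polytabloids of the staircase: modulo two, only one labelling survives.
-/

namespace Vale.Agent.P197.Saxl

open Finset

section Parity

variable {m : ℕ}

theorem cell_ext {z z' : Cell m} (h₁ : cr z = cr z') (h₂ : cc z = cc z') : z = z' :=
  Subtype.ext (Prod.ext h₁ h₂)

/-- Reversal of every row of the staircase. -/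
def rowRev (m : ℕ) : Equiv.Perm (Cell m) :=
  Function.Involutive.toPerm
    (fun z => ⟨(z.1.1, ⟨m - 1 - z.1.1 - z.1.2, by omega⟩), by have := z.2; simp only; omega⟩)
    (fun z => Subtype.ext (Prod.ext rfl (Fin.ext (by have := z.2; simp only; omega))))

/-- The cell with row the label of `rowRev` and column the row. -/
def rotPerm (m : ℕ) : Equiv.Perm (Cell m) where
  toFun z := ⟨(⟨m - 1 - z.1.1 - z.1.2, by omega⟩, z.1.1), by have := z.2; simp only; omega⟩
  invFun z := ⟨(z.1.2, ⟨m - 1 - z.1.1 - z.1.2, by omega⟩), by have := z.2; simp only; omega⟩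
  left_inv z := Subtype.ext (Prod.ext rfl (Fin.ext (by have := z.2; simp only; omega)))
  right_inv z := Subtype.ext (Prod.ext (Fin.ext (by have := z.2; simp only; omega)) rfl)

/-- The labelling constant on antidiagonals. -/
def star₀ (m : ℕ) : Cell m → Fin m := cc ∘ rowRev m

theorem star₀_val (z : Cell m) : (star₀ m z : ℕ) = m - 1 - cr z - cc z := rfl

theorem cr_rowRev : cr ∘ ⇑(rowRev m) = cr := rfl

/-- A labelling bijective on rows and injective on columns is constant on antidiagonals. -/
theorem eq_star₀ {L : Cell m → Fin m} {d : Equiv.Perm (Cell m)} (hd : cr ∘ d = cr)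
    (hL : cc ∘ d = L) (hinj : ∀ z z', cc z = cc z' → L z = L z' → z = z') : L = star₀ m := by
  have bound : ∀ z, (cr z : ℕ) + L z < m := by
    intro z
    have h := (d z).2
    rw [← congrFun hL z, ← congrFun hd z]
    exact h
  have exist : ∀ i b : ℕ, i + b < m → ∃ z, (cr z : ℕ) = i ∧ (L z : ℕ) = b := by
    intro i b hib
    refine ⟨d.symm ⟨(⟨i, by omega⟩, ⟨b, by omega⟩), hib⟩, ?_, ?_⟩
    · rw [← congrFun hd (d.symm _)]; simp [cr]
    · rw [← congrFun hL (d.symm _)]; simp [cc]
  have main : ∀ a k : ℕ, ∀ z, (L z : ℕ) = a → m - (cr z : ℕ) = k →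
      (cr z : ℕ) + cc z + a + 1 = m := by
    intro a
    induction a using Nat.strong_induction_on with
    | _ a IHa =>
      intro k
      induction k using Nat.strong_induction_on with
      | _ k IHk =>
        intro z hz hk
        have hb := bound z
        have hc : (cr z : ℕ) + cc z < m := z.2
        rcases lt_trichotomy ((cr z : ℕ) + cc z + a + 1) m with h | h | h
        · obtain ⟨z', h₁, h₂⟩ := exist (m - 1 - a - cc z) a (by omega)
          have e := IHk _ (by omega) z' h₂ rfl
          have : z = z' := hinj z z' (Fin.ext (by omega)) (Fin.ext (by omega))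
          subst this
          omega
        · exact h
        · obtain ⟨z', h₁, h₂⟩ := exist (cr z) (m - 1 - cr z - cc z) (by omega)
          have e := IHa (m - 1 - cr z - cc z) (by omega) _ z' h₂ rfl
          have : z = z' := cell_ext (Fin.ext h₁.symm) (Fin.ext (by omega))
          subst this
          omega
  funext z
  have := main _ _ z rfl rfl
  exact Fin.ext (by rw [star₀_val]; omega)

/-- The only column permutation compatible with `star₀` is the identity. -/
theorem col_eq_one {u c : Equiv.Perm (Cell m)} (h₁ : cr ∘ u = star₀ m) (h₂ : cc ∘ u = cr ∘ c)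
    (h₃ : cc ∘ c = cc) : c = 1 := by
  have main : ∀ s k : ℕ, ∀ z, (cr z : ℕ) + cc z = s → s - (cr z : ℕ) = k → c z = z := by
    intro s
    induction s using Nat.strong_induction_on with
    | _ s IHs =>
      intro k
      induction k using Nat.strong_induction_on with
      | _ k IHk =>
        intro z hs hk
        have hzc : (cr z : ℕ) + cc z < m := z.2
        have hu : (cr (u z) : ℕ) + cc (u z) < m := (u z).2
        have e₁ : cr (u z) = star₀ m z := congrFun h₁ z
        have e₂ : cc (u z) = cr (c z) := congrFun h₂ z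
        have e₃ : cc (c z) = cc z := congrFun h₃ z
        rw [e₁, e₂, star₀_val] at hu
        refine cell_ext ?_ e₃
        rcases lt_trichotomy (cr (c z) : ℕ) (cr z) with h | h | h
        · let z' : Cell m := ⟨(cr (c z), cc z), by simp only; omega⟩
          have r₁ : cr z' = cr (c z) := rfl
          have r₂ : cc z' = cc z := rfl
          have : c z = c z' := by
            rw [IHs _ (by rw [r₁, r₂]; omega) _ z' rfl rfl]
            exact cell_ext r₁.symm (e₃.trans r₂.symm)
          rw [← c.injective this] at r₁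
          exact r₁.symm
        · exact Fin.ext h
        · let z' : Cell m := ⟨(cr (c z), ⟨(cr z : ℕ) + cc z - cr (c z), by omega⟩),
            by simp only; omega⟩
          have r₁ : cr z' = cr (c z) := rfl
          have r₂ : (cc z' : ℕ) = (cr z : ℕ) + cc z - cr (c z) := rfl
          have e : c z' = z' := IHk (s - (cr (c z) : ℕ)) (by omega) z' (by rw [r₁, r₂]; omega)
            (by rw [r₁])
          have : u z = u z' := cell_ext
            (by rw [e₁, show cr (u z') = star₀ m z' from congrFun h₁ z']; exact Fin.ext (by rw [star₀_val, star₀_val, r₁, r₂]; omega))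
            (by rw [e₂, show cc (u z') = cr (c z') from congrFun h₂ z', e, r₁])
          rw [← u.injective this] at r₁
          exact r₁.symm
  exact Equiv.ext fun z => main _ _ z rfl rfl

open Classical in
/-- The row polytabloid, with integer values. -/
noncomputable def rowZ (L : Cell m → Fin m) : ℤ :=
  ∑ d : Equiv.Perm (Cell m),
    if cr ∘ d = cr ∧ cc ∘ d = L then ((Equiv.Perm.sign d : ℤˣ) : ℤ) else 0

open Classical in
/-- The transformed column polytabloid, with integer values. -/
noncomputable def colZ (L : Cell m → Fin m) : ℤ :=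
  ∑ q : Equiv.Perm (Cell m) × Equiv.Perm (Cell m),
    if cr ∘ q.1 = L ∧ cc ∘ q.1 = cr ∘ q.2 ∧ cc ∘ q.2 = cc then
      ((Equiv.Perm.sign q.1 : ℤˣ) : ℤ) * ((Equiv.Perm.sign q.2 : ℤˣ) : ℤ) else 0

theorem sign_cast_two {α : Type} [Fintype α] [DecidableEq α] (g : Equiv.Perm α) :
    ((((Equiv.Perm.sign g : ℤˣ) : ℤ)) : ZMod 2) = 1 := by
  rcases Int.units_eq_one_or (Equiv.Perm.sign g) with h | h <;> simp [h]

open Classical in
theorem rowZ_colZ_even {L : Cell m → Fin m} (hL : L ≠ star₀ m) :
    ((rowZ L * colZ L : ℤ) : ZMod 2) = 0 := by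
  by_cases hr : ∃ d : Equiv.Perm (Cell m), cr ∘ d = cr ∧ cc ∘ d = L
  · obtain ⟨d, hd₁, hd₂⟩ := hr
    by_cases hinj : ∀ z z', cc z = cc z' → L z = L z' → z = z'
    · exact absurd (eq_star₀ hd₁ hd₂ hinj) hL
    push Not at hinj
    obtain ⟨z₁, z₂, hc, hl, hne⟩ := hinj
    have hcs : ∀ z, cc (Equiv.swap z₁ z₂ z) = cc z := fun z => by
      rw [Equiv.swap_apply_def]; split_ifs with h h' <;> simp_all
    have hls : ∀ z, L (Equiv.swap z₁ z₂ z) = L z := fun z => by
      rw [Equiv.swap_apply_def]; split_ifs with h h' <;> simp_all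
    rw [Int.cast_mul]
    refine mul_eq_zero_of_right _ ?_
    rw [colZ, Int.cast_sum]
    refine Finset.sum_involution (fun q _ => (q.1 * Equiv.swap z₁ z₂, q.2 * Equiv.swap z₁ z₂))
      ?_ ?_ (fun q _ => mem_univ _) ?_
    · intro q _
      have e : (cr ∘ ⇑(q.1 * Equiv.swap z₁ z₂) = L ∧
          cc ∘ ⇑(q.1 * Equiv.swap z₁ z₂) = cr ∘ ⇑(q.2 * Equiv.swap z₁ z₂) ∧
          cc ∘ ⇑(q.2 * Equiv.swap z₁ z₂) = cc) ↔
          (cr ∘ ⇑q.1 = L ∧ cc ∘ ⇑q.1 = cr ∘ ⇑q.2 ∧ cc ∘ ⇑q.2 = cc) := by
        constructor <;> rintro ⟨a, b, c⟩ <;> refine ⟨?_, ?_, ?_⟩ <;> funext z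
        · simpa [hls] using congrFun a (Equiv.swap z₁ z₂ z)
        · simpa using congrFun b (Equiv.swap z₁ z₂ z)
        · simpa [hcs] using congrFun c (Equiv.swap z₁ z₂ z)
        · simpa [hls] using congrFun a (Equiv.swap z₁ z₂ z)
        · simpa using congrFun b (Equiv.swap z₁ z₂ z)
        · simpa [hcs] using congrFun c (Equiv.swap z₁ z₂ z)
      simp only [e]
      split
      · push_cast
        simp only [sign_cast_two]
        decide
      · simp
    · intro q _ _ h
      have h' := congrArg Prod.fst h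
      simp only [mul_eq_left] at h'
      exact hne (by simpa using (Equiv.swap_eq_refl_iff.mp h'))
    · intro q _
      simp [mul_assoc]
  · have : rowZ L = 0 := Finset.sum_eq_zero fun d _ => if_neg fun h => hr ⟨d, h⟩
    simp [this]

open Classical in
theorem rowZ_colZ_star₀ : ((rowZ (star₀ m) * colZ (star₀ m) : ℤ) : ZMod 2) = 1 := by
  have h₁ : ((rowZ (star₀ m) : ℤ) : ZMod 2) = 1 := by
    rw [rowZ, Int.cast_sum, Finset.sum_eq_single (rowRev m)]
    · rw [if_pos ⟨cr_rowRev, rfl⟩, sign_cast_two]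
    · intro d _ hd
      rw [if_neg, Int.cast_zero]
      rintro ⟨a, b⟩
      exact hd (Equiv.ext fun z => cell_ext (congrFun a z) (congrFun b z))
    · simp
  have h₂ : ((colZ (star₀ m) : ℤ) : ZMod 2) = 1 := by
    rw [colZ, Int.cast_sum, Finset.sum_eq_single ((rotPerm m, 1) : _ × _)]
    · rw [if_pos ⟨rfl, rfl, rfl⟩, Int.cast_mul, sign_cast_two, sign_cast_two, one_mul]
    · intro q _ hq
      rw [if_neg, Int.cast_zero]
      rintro ⟨a, b, c⟩
      have hc := col_eq_one a b c
      refine hq (Prod.ext (Equiv.ext fun z => cell_ext (congrFun a z) ?_) hc)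
      have := congrFun b z
      rw [hc] at this
      exact this
    · simp
  rw [Int.cast_mul, h₁, h₂, one_mul]

open Classical in
/-- The map sending the column polytabloid of the staircase to the parity kernel. -/
noncomputable def parityJ (y : Fn (Cell m) (Fin m)) : Fn (Cell m) (Fin m) := fun L =>
  ∑ u : Equiv.Perm (Cell m),
    if cr ∘ u = L then (((Equiv.Perm.sign u : ℤˣ) : ℤ) : ℂ) * y (cc ∘ u) else 0

theorem parityJ_add (y y' : Fn (Cell m) (Fin m)) :
    parityJ (y + y') = parityJ y + parityJ y' := by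
  funext L
  simp [parityJ, mul_add, ite_add_zero, Finset.sum_add_distrib]

theorem parityJ_smul (a : ℂ) (y : Fn (Cell m) (Fin m)) :
    parityJ (a • y) = a • parityJ y := by
  funext L
  simp [parityJ, Finset.mul_sum, mul_left_comm]

theorem parityJ_act (g : Equiv.Perm (Cell m)) (y : Fn (Cell m) (Fin m)) :
    parityJ (act g y) =
      (((Equiv.Perm.sign g : ℤˣ) : ℤ) : ℂ) • act g (parityJ y) := by
  classical
  funext L
  simp only [parityJ, act_apply, Pi.smul_apply, smul_eq_mul, Finset.mul_sum]
  refine Fintype.sum_equiv (Equiv.mulRight g) _ _ fun u => ?_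
  have e : (cr ∘ ⇑(u * g) = L ∘ ⇑g) ↔ cr ∘ ⇑u = L := by
    constructor <;> intro h <;> funext z
    · simpa using congrFun h (g⁻¹ z)
    · simpa using congrFun h (g z)
  simp only [Equiv.coe_mulRight, e]
  split
  · rw [Equiv.Perm.sign_mul, Function.comp_assoc, Equiv.Perm.coe_mul]
    rcases Int.units_eq_one_or (Equiv.Perm.sign g) with h | h <;> simp [h]
  · simp

theorem eR_eq_rowZ (L : Cell m → Fin m) : eR m L = (rowZ L : ℂ) := by
  classical
  simp only [eR, poly, rowZ, Int.cast_sum]
  refine Finset.sum_congr rfl fun d _ => ?_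
  split <;> simp

theorem parityJ_eC_eq_colZ (L : Cell m → Fin m) : parityJ (eC m) L = (colZ L : ℂ) := by
  classical
  simp only [parityJ, eC, poly, colZ, Int.cast_sum, Fintype.sum_prod_type]
  refine Finset.sum_congr rfl fun u _ => ?_
  by_cases h : cr ∘ ⇑u = L
  · rw [if_pos h, Finset.mul_sum]
    refine Finset.sum_congr rfl fun c _ => ?_
    simp only [h, true_and, eq_comm (a := cc ∘ ⇑u), and_comm (a := cr ∘ ⇑c = cc ∘ ⇑u)]
    split <;> simp
  · simp [h]

variable {W : Type} [AddCommGroup W] [Module ℂ W]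

open Classical in
/-- The bilinear map given by a vector. -/
noncomputable def parityMap (ρ : Representation ℂ (Equiv.Perm (Cell m)) W) (w : W) :
    Fn (Cell m) (Fin m) →ₗ[ℂ] Fn (Cell m) (Fin m) →ₗ[ℂ] W :=
  LinearMap.mk₂ ℂ
    (fun x y => ∑ g : Equiv.Perm (Cell m),
      (x (cc ∘ g) * parityJ y (cc ∘ g) * (((Equiv.Perm.sign g : ℤˣ) : ℤ) : ℂ)) • ρ g⁻¹ w)
    (fun x x' y => by simp [add_mul, add_smul, Finset.sum_add_distrib])
    (fun a x y => by simp [Finset.smul_sum, smul_smul, mul_assoc])
    (fun x y y' => by simp [parityJ_add, mul_add, add_mul, add_smul, Finset.sum_add_distrib])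
    (fun a x y => by simp [parityJ_smul, Finset.smul_sum, smul_smul, mul_assoc, mul_left_comm])

theorem parityMap_equiv (ρ : Representation ℂ (Equiv.Perm (Cell m)) W) (w : W) :
    IsEquiv₂ ρ (parityMap ρ w) := by
  intro u x y
  simp only [parityMap, LinearMap.mk₂_apply, map_sum, map_smul, parityJ_act, act_apply,
    Pi.smul_apply, smul_eq_mul]
  refine Fintype.sum_equiv (Equiv.mulRight u) _ _ fun g => ?_
  simp only [Equiv.coe_mulRight, Equiv.Perm.coe_mul, Function.comp_assoc, mul_inv_rev, map_mul,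
    Module.End.mul_apply, Units.val_mul, Int.cast_mul]
  rw [← Module.End.mul_apply (ρ u), ← map_mul, mul_inv_cancel, map_one, Module.End.one_apply]
  congr 1
  ring

theorem zsmul_eq_zero_imp {n : ℤ} (hn : n ≠ 0) {v : W} (h : n • v = 0) : v = 0 := by
  rw [← Int.cast_smul_eq_zsmul ℂ] at h
  exact (smul_eq_zero.mp h).resolve_left (Int.cast_ne_zero.mpr hn)

/-- **Parity base**: a vector on which the column group acts by the sign detects the pair. -/
theorem good_of_sign_fixed {m : ℕ} {W : Type} [AddCommGroup W] [Module ℂ W]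
    (ρ : Representation ℂ (Equiv.Perm (Cell m)) W) {w : W} (hw0 : w ≠ 0)
    (hw : ∀ g : Equiv.Perm (Cell m), cc ∘ g = cc →
      ρ g w = ((Equiv.Perm.sign g : ℤˣ) : ℤ) • w) : Good m ρ := by
  classical
  refine ⟨parityMap ρ w, parityMap_equiv ρ w, fun h0 => hw0 ?_⟩
  let sg : Equiv.Perm (Cell m) → ℤ := fun g => ((Equiv.Perm.sign g : ℤˣ) : ℤ)
  let T : Equiv.Perm (Cell m) → W := fun g => sg g • ρ g⁻¹ w
  let F : (Cell m → Fin m) → ℤ := fun L => rowZ L * colZ L
  let K : (Cell m → Fin m) → Finset (Equiv.Perm (Cell m)) := fun L => univ.filter fun g => cc ∘ g = L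
  have h1 : parityMap ρ w (eR m) (eC m) = ∑ g : Equiv.Perm (Cell m), F (cc ∘ ⇑g) • T g := by
    simp only [parityMap, LinearMap.mk₂_apply, eR_eq_rowZ, parityJ_eC_eq_colZ, F, T, sg,
      smul_smul]
    refine Finset.sum_congr rfl fun g _ => ?_
    rw [← Int.cast_smul_eq_zsmul ℂ (_ * _)]
    push_cast
    rfl
  have hT : ∀ s g : Equiv.Perm (Cell m), cc ∘ ⇑s = cc → T (s * g) = T g := by
    intro s g hs
    have hs' : cc ∘ ⇑s⁻¹ = cc := by
      funext z
      have := congrFun hs (s⁻¹ z)
      simpa using this.symm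
    simp only [T, sg, mul_inv_rev, map_mul, Module.End.mul_apply, hw _ hs', map_zsmul,
      Equiv.Perm.sign_inv, smul_smul, Units.val_mul]
    congr 1
    rcases Int.units_eq_one_or (Equiv.Perm.sign s) with h | h <;> simp [h]
  let sel : (Cell m → Fin m) → Equiv.Perm (Cell m) := fun L =>
    if h : ∃ g : Equiv.Perm (Cell m), cc ∘ ⇑g = L then h.choose else 1
  have hfib : ∀ L ∈ univ.image (fun g : Equiv.Perm (Cell m) => cc ∘ ⇑g),
      ∑ g ∈ K L, F (cc ∘ g) • T g = ((K cc).card : ℤ) • (F L • T (sel L)) := by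
    intro L hL
    have hex : ∃ g : Equiv.Perm (Cell m), cc ∘ ⇑g = L := by simpa using hL
    have hsel : cc ∘ ⇑(sel L) = L := by simp only [sel, dif_pos hex]; exact hex.choose_spec
    have : ∑ g ∈ K L, F (cc ∘ g) • T g = ∑ s ∈ K cc, F L • T (sel L) := by
      refine (Finset.sum_equiv (Equiv.mulRight (sel L)) ?_ ?_).symm
      · intro s
        simp only [K, mem_filter, mem_univ, true_and, Equiv.coe_mulRight, Equiv.Perm.coe_mul]
        rw [← Function.comp_assoc]
        constructor <;> intro h
        · rw [h, hsel]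
        · funext z
          simpa [hsel] using
            (congrFun h ((sel L)⁻¹ z)).trans (congrFun hsel ((sel L)⁻¹ z)).symm
      · intro s hs
        simp only [K, mem_filter, mem_univ, true_and] at hs
        simp only [Equiv.coe_mulRight, hT s _ hs, Equiv.Perm.coe_mul, ← Function.comp_assoc, hs,
          hsel]
    rw [this, Finset.sum_const, natCast_zsmul]
  rw [h1, ← Finset.sum_fiberwise_of_maps_to (t := univ.image fun g : Equiv.Perm (Cell m) => cc ∘ ⇑g)
    (g := fun g : Equiv.Perm (Cell m) => cc ∘ ⇑g) (fun g hg => mem_image_of_mem _ hg), Finset.sum_congr rfl hfib,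
    ← Finset.smul_sum] at h0
  have hn : ((K cc).card : ℤ) ≠ 0 := by
    simp only [ne_eq, Nat.cast_eq_zero, Finset.card_eq_zero]
    exact Finset.ne_empty_of_mem (show (1 : Equiv.Perm (Cell m)) ∈ K cc by simp [K])
  have h2 := zsmul_eq_zero_imp hn h0
  let Λ : Submodule ℤ W := Submodule.span ℤ (Set.range fun g => ρ g w)
  have hTΛ : ∀ g, T g ∈ Λ := fun g => Λ.smul_mem _ (Submodule.subset_span ⟨g⁻¹, rfl⟩)
  let I : Ideal ℤ := Ideal.span {2}
  have hstarmem : star₀ m ∈ univ.image (fun g : Equiv.Perm (Cell m) => cc ∘ ⇑g) :=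
    mem_image.mpr ⟨rowRev m, mem_univ _, rfl⟩
  rw [← Finset.add_sum_erase _ _ hstarmem] at h2
  have hodd : ∃ k, F (star₀ m) = 2 * k + 1 := by
    have h := rowZ_colZ_star₀ (m := m)
    rw [← Int.cast_one (R := ZMod 2), ZMod.intCast_eq_intCast_iff_dvd_sub] at h
    obtain ⟨k, hk⟩ := h
    exact ⟨-k, by simp only [F]; omega⟩
  have hstar : T (sel (star₀ m)) ∈ I • Λ := by
    have hmul : ∀ (k : ℤ) (v : W), v ∈ Λ → (2 * k) • v ∈ I • Λ := fun k v hv =>
      Submodule.smul_mem_smul (Ideal.mem_span_singleton.mpr ⟨k, rfl⟩) hv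
    have hrest : ∑ L ∈ (univ.image fun g : Equiv.Perm (Cell m) => cc ∘ ⇑g).erase (star₀ m),
        F L • T (sel L) ∈ I • Λ := Submodule.sum_mem _ fun L hL => by
      obtain ⟨k, hk⟩ := (ZMod.intCast_zmod_eq_zero_iff_dvd _ 2).mp
        (rowZ_colZ_even (Finset.ne_of_mem_erase hL))
      rw [show F L = 2 * k from by simpa [F] using hk]
      exact hmul k _ (hTΛ _)
    obtain ⟨k, hk⟩ := hodd
    have e : T (sel (star₀ m)) =
        -(∑ L ∈ (univ.image fun g : Equiv.Perm (Cell m) => cc ∘ ⇑g).erase (star₀ m),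
          F L • T (sel L)) - (2 * k) • T (sel (star₀ m)) := by
      rw [hk, add_smul, one_smul] at h2
      rw [neg_eq_of_add_eq_zero_left h2]
      abel
    rw [e]
    exact Submodule.sub_mem _ (Submodule.neg_mem _ hrest) (hmul k _ (hTΛ _))
  have hinv : ∀ g : Equiv.Perm (Cell m), ∀ v ∈ I • Λ, ρ g v ∈ I • Λ := by
    intro g v hv
    refine Submodule.smul_induction_on hv (fun r hr n hn => ?_) fun x y hx hy => ?_
    · rw [map_zsmul]
      refine Submodule.smul_mem_smul hr ?_
      refine Submodule.span_induction ?_ ?_ ?_ ?_ hn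
      · rintro _ ⟨g', rfl⟩
        exact Submodule.subset_span ⟨g * g', by simp⟩
      · simp
      · intro x y _ _ hx hy; rw [map_add]; exact Λ.add_mem hx hy
      · intro a x _ hx; rw [map_zsmul]; exact Λ.smul_mem _ hx
    · rw [map_add]; exact Submodule.add_mem _ hx hy
  have hle : Λ ≤ I • Λ := by
    refine Submodule.span_le.mpr ?_
    rintro _ ⟨g, rfl⟩
    have e : ρ g w = sg (sel (star₀ m)) • ρ (g * sel (star₀ m)) (T (sel (star₀ m))) := by
      simp only [T, map_zsmul, smul_smul, sg]
      rw [← Module.End.mul_apply, ← map_mul, mul_inv_cancel_right]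
      rcases Int.units_eq_one_or (Equiv.Perm.sign (sel (star₀ m))) with h | h <;> simp [h]
    rw [SetLike.mem_coe, show (fun g => ρ g w) g = ρ g w from rfl, e]
    exact Submodule.smul_mem _ _ (hinv _ _ hstar)
  obtain ⟨r, hr, hr0⟩ := Submodule.exists_sub_one_mem_and_smul_eq_zero_of_fg_of_le_smul I Λ
    (Submodule.fg_span (Set.finite_range _)) hle
  refine zsmul_eq_zero_imp (n := r) ?_ (hr0 w (Submodule.subset_span ⟨1, by simp⟩))
  rintro rfl
  obtain ⟨k, hk⟩ := Ideal.mem_span_singleton.mp hr
  omega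

end Parity

end Vale.Agent.P197.Saxl
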