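import Mathlib.Data.Fin.Tuple.Sort
import Mathlib.LinearAlgebra.Matrix.Determinant.Basic
import Mathlib.LinearAlgebra.Matrix.Notation
import Mathlib.Tactic
import Vale.Agent.P197.Saxl.Defs

/-!
# P197: the path detects every shape with at most four rows

The contraction of the path is a word in two by two matrices.  With the four local tensors below
the word changes its sign under the exchange of adjacent distinct letters, so antisymmetrization
along consecutive columns multiplies it by the order of the column stabilizer.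
-/

namespace Vale.Agent.P197.Saxl

open Matrix Finset

/-- The antisymmetric form as a matrix. -/
def epsM : Matrix (Fin 2) (Fin 2) ℂ := !![0, 1; -1, 0]

theorem eps_eq (a b : Fin 2) : eps a b = epsM a b := by
  fin_cases a <;> fin_cases b <;> simp [eps, epsM]

theorem epsM_mul_self : epsM * epsM = -1 := by
  ext a b
  fin_cases a <;> fin_cases b <;> simp [epsM]

/-- The letter at a vertex: transposed at the even vertices. -/
def letterM (M : ℕ → Matrix (Fin 2) (Fin 2) ℂ) (n : ℕ) : Matrix (Fin 2) (Fin 2) ℂ :=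
  if Even n then (M n)ᵀ else M n

/-- The word up to the bond after vertex `n - 1`. -/
def preM (M : ℕ → Matrix (Fin 2) (Fin 2) ℂ) : ℕ → Matrix (Fin 2) (Fin 2) ℂ
  | 0 => 1
  | n + 1 => preM M n * letterM M n * epsM

theorem preM_congr {M N : ℕ → Matrix (Fin 2) (Fin 2) ℂ} {n : ℕ} (h : ∀ j < n, M j = N j) :
    preM M n = preM N n := by
  induction n with
  | zero => rfl
  | succ n ih =>
    simp only [preM, letterM, h n (by omega), ih fun j hj => h j (by omega)]

theorem letterM_even {M : ℕ → Matrix (Fin 2) (Fin 2) ℂ} (j : ℕ) :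
    letterM M (2 * j) = (M (2 * j))ᵀ := if_pos ⟨j, by omega⟩

theorem letterM_odd {M : ℕ → Matrix (Fin 2) (Fin 2) ℂ} (j : ℕ) :
    letterM M (2 * j + 1) = M (2 * j + 1) := if_neg (by rintro ⟨i, hi⟩; omega)

/-! ### The contraction is a word -/

/-- Appending two letters. -/
def app₂ (k : ℕ) :
    (Fin (2 * k + 1) → Fin 2) × Fin 2 × Fin 2 ≃ (Fin (2 * (k + 1) + 1) → Fin 2) where
  toFun x j := if h : (j : ℕ) < 2 * k + 1 then x.1 ⟨j, h⟩
    else if (j : ℕ) = 2 * k + 1 then x.2.1 else x.2.2
  invFun p := (fun j => p ⟨j, by omega⟩, p ⟨2 * k + 1, by omega⟩, p ⟨2 * k + 2, by omega⟩)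
  left_inv := by
    rintro ⟨p, b, c⟩
    simp [Fin.is_le]
  right_inv p := by
    funext j
    by_cases h : (j : ℕ) < 2 * k + 1
    · simp [h]
    · by_cases h' : (j : ℕ) = 2 * k + 1
      · simp [h', show (⟨2 * k + 1, by omega⟩ : Fin (2 * (k + 1) + 1)) = j from Fin.ext h'.symm]
      · simp [h, h', show (⟨2 * k + 2, by omega⟩ : Fin (2 * (k + 1) + 1)) = j from
          Fin.ext (by simp only; omega)]

theorem app₂_lt (k : ℕ) (x : (Fin (2 * k + 1) → Fin 2) × Fin 2 × Fin 2)
    (j : Fin (2 * (k + 1) + 1)) (h : (j : ℕ) < 2 * k + 1) : app₂ k x j = x.1 ⟨j, h⟩ :=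
  dif_pos h

theorem app₂_one (k : ℕ) (x : (Fin (2 * k + 1) → Fin 2) × Fin 2 × Fin 2)
    (j : Fin (2 * (k + 1) + 1)) (h : (j : ℕ) = 2 * k + 1) : app₂ k x j = x.2.1 :=
  (dif_neg (by omega)).trans (if_pos h)

theorem app₂_two (k : ℕ) (x : (Fin (2 * k + 1) → Fin 2) × Fin 2 × Fin 2)
    (j : Fin (2 * (k + 1) + 1)) (h : (j : ℕ) = 2 * k + 2) : app₂ k x j = x.2.2 :=
  (dif_neg (by omega)).trans (if_neg (by omega))

/-- The summand of the contraction with the last free letter equal to `a`. -/
def pathTerm (k : ℕ) (M : ℕ → Matrix (Fin 2) (Fin 2) ℂ) (a : Fin 2)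
    (p q : Fin (2 * k + 1) → Fin 2) : ℂ :=
  (∏ i : Fin k, eps (p ⟨2 * i, by omega⟩) (p ⟨2 * i + 1, by omega⟩)) *
    (∏ i : Fin k, eps (q ⟨2 * i + 1, by omega⟩) (q ⟨2 * i + 2, by omega⟩)) *
    (if q ⟨0, by omega⟩ = 0 then 1 else 0) * (if p ⟨2 * k, by omega⟩ = a then 1 else 0) *
    ∏ v : Fin (2 * k + 1), M v (p v) (q v)

theorem sum_pathTerm (k : ℕ) (M : ℕ → Matrix (Fin 2) (Fin 2) ℂ) (a : Fin 2) :
    ∑ p, ∑ q, pathTerm k M a p q = (preM M (2 * k) * letterM M (2 * k)) 0 a := by
  induction k generalizing a with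
  | zero =>
    rw [← Equiv.sum_comp (Equiv.funUnique (Fin 1) (Fin 2)).symm]
    conv_lhs =>
      enter [2, p]
      rw [← Equiv.sum_comp (Equiv.funUnique (Fin 1) (Fin 2)).symm]
    fin_cases a <;>
      simp [pathTerm, preM, letterM, Equiv.funUnique, uniqueElim_const]
  | succ k ih =>
    rw [← Equiv.sum_comp (app₂ k)]
    conv_lhs =>
      enter [2, p]
      rw [← Equiv.sum_comp (app₂ k)]
    have step : ∀ (p q : Fin (2 * k + 1) → Fin 2) (b c d e : Fin 2),
        pathTerm (k + 1) M a (app₂ k (p, b, c)) (app₂ k (q, d, e)) =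
          pathTerm k M (p ⟨2 * k, by omega⟩) p q *
            (eps (p ⟨2 * k, by omega⟩) b * M (2 * k + 1) b d * eps d e *
              (if c = a then 1 else 0) * M (2 * k + 2) c e) := by
      intro p q b c d e
      have hP : (∏ v : Fin (2 * (k + 1) + 1), M v (app₂ k (p, b, c) v) (app₂ k (q, d, e) v)) =
          (∏ v : Fin (2 * k + 1), M v (p v) (q v)) * M (2 * k + 1) b d * M (2 * k + 2) c e := by
        show (∏ v : Fin (2 * k + 1 + 1 + 1), M v (app₂ k (p, b, c) v) (app₂ k (q, d, e) v)) = _
        rw [Fin.prod_univ_castSucc, Fin.prod_univ_castSucc]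
        exact congr_arg₂ (· * ·) (congr_arg₂ (· * ·)
          (prod_congr rfl fun v _ => congr_arg₂ (M (v : ℕ))
            (app₂_lt k _ _ v.isLt) (app₂_lt k _ _ v.isLt))
          (congr_arg₂ (M (2 * k + 1)) (app₂_one k _ _ rfl) (app₂_one k _ _ rfl)))
          (congr_arg₂ (M (2 * k + 2)) (app₂_two k _ _ rfl) (app₂_two k _ _ rfl))
      have u1 : (∏ i : Fin (k + 1), eps (app₂ k (p, b, c) ⟨2 * i, by omega⟩)
          (app₂ k (p, b, c) ⟨2 * i + 1, by omega⟩)) =
          (∏ i : Fin k, eps (p ⟨2 * i, by omega⟩) (p ⟨2 * i + 1, by omega⟩)) *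
            eps (p ⟨2 * k, by omega⟩) b := by
        rw [Fin.prod_univ_castSucc]
        exact congr_arg₂ (· * ·) (prod_congr rfl fun i _ => congr_arg₂ eps
          (app₂_lt k _ _ (show 2 * (i : ℕ) < 2 * k + 1 by omega))
          (app₂_lt k _ _ (show 2 * (i : ℕ) + 1 < 2 * k + 1 by omega)))
          (congr_arg₂ eps (app₂_lt k _ _ (show 2 * k < 2 * k + 1 by omega)) (app₂_one k _ _ rfl))
      have u2 : (∏ i : Fin (k + 1), eps (app₂ k (q, d, e) ⟨2 * i + 1, by omega⟩)
          (app₂ k (q, d, e) ⟨2 * i + 2, by omega⟩)) =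
          (∏ i : Fin k, eps (q ⟨2 * i + 1, by omega⟩) (q ⟨2 * i + 2, by omega⟩)) * eps d e := by
        rw [Fin.prod_univ_castSucc]
        exact congr_arg₂ (· * ·) (prod_congr rfl fun i _ => congr_arg₂ eps
          (app₂_lt k _ _ (show 2 * (i : ℕ) + 1 < 2 * k + 1 by omega))
          (app₂_lt k _ _ (show 2 * (i : ℕ) + 2 < 2 * k + 1 by omega)))
          (congr_arg₂ eps (app₂_one k _ _ rfl) (app₂_two k _ _ rfl))
      unfold pathTerm
      rw [hP, u1, u2, app₂_lt k (q, d, e) ⟨0, by omega⟩ (Nat.succ_pos _),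
        app₂_two k (p, b, c) ⟨2 * (k + 1), by omega⟩ rfl, if_pos rfl]
      ring
    simp only [Fintype.sum_prod_type, step]
    have key : ∀ a' : Fin 2, ∑ p, ∑ q, pathTerm k M a' p q =
        ∑ p, ∑ q, if p ⟨2 * k, by omega⟩ = a' then pathTerm k M (p ⟨2 * k, by omega⟩) p q
          else 0 := by
      intro a'
      refine sum_congr rfl fun p _ => sum_congr rfl fun q _ => ?_
      split
      · next h => rw [h]
      · next h => simp [pathTerm, h]
    let K : Fin 2 → ℂ := fun a' => ∑ b, ∑ c, ∑ d, ∑ e,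
      eps a' b * M (2 * k + 1) b d * eps d e * (if c = a then 1 else 0) * M (2 * k + 2) c e
    calc _ = ∑ p, ∑ q, pathTerm k M (p ⟨2 * k, by omega⟩) p q * K (p ⟨2 * k, by omega⟩) := by
          refine sum_congr rfl fun p _ => ?_
          simp only [K, Fin.sum_univ_two, sum_add_distrib, mul_add]
      _ = ∑ a', (∑ p, ∑ q, pathTerm k M a' p q) * K a' := by
          simp only [key, Finset.sum_mul]
          symm
          rw [Finset.sum_comm]
          refine sum_congr rfl fun p _ => ?_
          rw [Finset.sum_comm]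
          refine sum_congr rfl fun q _ => ?_
          simp [ite_mul]
      _ = _ := by
          simp only [ih, K, eps_eq, show 2 * (k + 1) = 2 * k + 1 + 1 by ring, preM]
          rw [show letterM M (2 * k + 1) = M (2 * k + 1) from letterM_odd k,
            show letterM M (2 * k + 1 + 1) = (M (2 * k + 2))ᵀ from letterM_even (k + 1)]
          generalize preM M (2 * k) * letterM M (2 * k) = W
          fin_cases a <;> simp [Matrix.mul_apply, Fin.sum_univ_two] <;> ring

/-! ### The four tensors -/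

/-- Four invertible matrices which anticommute pairwise in the required sense. -/
def fourMat : Fin 4 → Matrix (Fin 2) (Fin 2) ℂ :=
  ![1, epsM, !![1, 0; 0, -1], !![0, 1; 1, 0]]

theorem det_fourMat (r : Fin 4) : (fourMat r).det ≠ 0 := by
  fin_cases r <;> simp [fourMat, epsM, Matrix.det_fin_two]

/-- The exchange of the first two letters. -/
def flipM : Matrix (Fin 2) (Fin 2) ℂ := !![0, 1; 1, 0]

theorem flip_eps_flip : flipMᵀ * epsM * flipM = -epsM := by
  ext a b
  fin_cases a <;> fin_cases b <;> simp [flipM, epsM, Matrix.mul_apply, Fin.sum_univ_two]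

theorem anticomm (P : Matrix (Fin 2) (Fin 2) ℂ) {r s : Fin 4} (h : r ≠ s) :
    (P * fourMat s)ᵀ * epsM * (P * fourMat r) = -((P * fourMat r)ᵀ * epsM * (P * fourMat s)) ∧
    (P * fourMat s) * epsM * (P * fourMat r)ᵀ = -((P * fourMat r) * epsM * (P * fourMat s)ᵀ) := by
  have h1 : (fourMat s)ᵀ * epsM * fourMat r = -((fourMat r)ᵀ * epsM * fourMat s) ∧
      fourMat s * epsM * (fourMat r)ᵀ = -(fourMat r * epsM * (fourMat s)ᵀ) := by
    constructor <;> ext a b <;>
      simp only [Matrix.mul_apply, Matrix.transpose_apply, Fin.sum_univ_two, Matrix.neg_apply] <;>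
      fin_cases r <;> fin_cases s <;> fin_cases a <;> fin_cases b <;>
      simp_all [fourMat, epsM]
  have hP : Pᵀ * epsM * P = P.det • epsM := by
    ext a b
    fin_cases a <;> fin_cases b <;>
      simp [epsM, Matrix.mul_apply, Fin.sum_univ_two, Matrix.det_fin_two] <;> ring
  constructor
  · have e : ∀ r s : Fin 4, (P * fourMat r)ᵀ * epsM * (P * fourMat s) =
        P.det • ((fourMat r)ᵀ * epsM * fourMat s) := fun r s => by
      rw [Matrix.transpose_mul, show (fourMat r)ᵀ * Pᵀ * epsM * (P * fourMat s) =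
        (fourMat r)ᵀ * (Pᵀ * epsM * P) * fourMat s by simp [Matrix.mul_assoc], hP]
      simp [Matrix.mul_assoc]
    rw [e, e, h1.1, smul_neg]
  · have e : ∀ r s : Fin 4, (P * fourMat r) * epsM * (P * fourMat s)ᵀ =
        P * (fourMat r * epsM * (fourMat s)ᵀ) * Pᵀ := fun r s => by
      simp [Matrix.transpose_mul, Matrix.mul_assoc]
    rw [e, e, h1.2]
    simp

theorem word_pair {Q A B A' B' : Matrix (Fin 2) (Fin 2) ℂ}
    (h : A' * epsM * B' = -(A * epsM * B)) :
    Q * A' * epsM * B' * epsM = -(Q * A * epsM * B * epsM) := by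
  rw [show Q * A' * epsM * B' * epsM = Q * (A' * epsM * B') * epsM by simp [Matrix.mul_assoc], h]
  simp [Matrix.mul_assoc]

theorem preM_swap (P : Matrix (Fin 2) (Fin 2) ℂ) (l : ℕ → Fin 4) {v : ℕ} (hv : l v ≠ l (v + 1)) :
    ∀ n, v + 1 < n → preM (fun j => P * fourMat (l (Equiv.swap v (v + 1) j))) n =
      -preM (fun j => P * fourMat (l j)) n := by
  intro n
  induction n with
  | zero => omega
  | succ n ih =>
    intro hn
    by_cases h : v + 1 < n
    · simp only [preM, ih h, letterM]
      rw [Equiv.swap_apply_of_ne_of_ne (by omega) (by omega)]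
      split <;> simp
    · obtain rfl : n = v + 1 := by omega
      simp only [preM]
      rw [preM_congr (n := v) (N := fun j => P * fourMat (l j)) fun j hj => by
        simp [Equiv.swap_apply_of_ne_of_ne (show j ≠ v by omega) (show j ≠ v + 1 by omega)]]
      obtain ⟨j, rfl | rfl⟩ := Nat.even_or_odd' v
      · simp only [letterM_even, letterM_odd, Equiv.swap_apply_left, Equiv.swap_apply_right]
        exact word_pair (anticomm P hv).1
      · simp only [show 2 * j + 1 + 1 = 2 * (j + 1) by ring, letterM_even, letterM_odd]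
        simp only [show 2 * (j + 1) = 2 * j + 1 + 1 by ring, Equiv.swap_apply_left,
          Equiv.swap_apply_right]
        exact word_pair (anticomm P hv).2

theorem word_swap (P : Matrix (Fin 2) (Fin 2) ℂ) (l : ℕ → Fin 4) {v n : ℕ}
    (hv : l v ≠ l (v + 1)) (hn : v + 1 ≤ n) :
    let M := fun j => P * fourMat (l j)
    let N := fun j => P * fourMat (l (Equiv.swap v (v + 1) j))
    preM N n * letterM N n = -(preM M n * letterM M n) := by
  intro M N
  have e : ∀ K : ℕ → Matrix (Fin 2) (Fin 2) ℂ,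
      preM K n * letterM K n = -(preM K (n + 1) * epsM) := fun K => by
    simp [preM, Matrix.mul_assoc, epsM_mul_self]
  rw [e, e, preM_swap P l hv (n + 1) (by omega)]
  simp [M]

theorem det_preM (l : ℕ → Fin 4) : ∀ n, (preM (fun j => fourMat (l j)) n).det ≠ 0
  | 0 => by simp [preM]
  | n + 1 => by
    have h1 : epsM.det ≠ 0 := by simp [epsM, Matrix.det_fin_two]
    have h2 : (letterM (fun j => fourMat (l j)) n).det ≠ 0 := by
      unfold letterM
      split <;> simp [det_fourMat]
    simp [preM, det_preM l n, h1, h2]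

theorem preM_flip (l : ℕ → Fin 4) : ∀ j, preM (fun j => flipM * fourMat (l j)) (2 * j) =
    (-1 : ℂ) ^ j • preM (fun j => fourMat (l j)) (2 * j)
  | 0 => by simp [preM]
  | j + 1 => by
    rw [show 2 * (j + 1) = 2 * j + 1 + 1 by ring]
    simp only [preM, letterM_even, letterM_odd, preM_flip l j, Matrix.transpose_mul]
    rw [show ∀ Q A B : Matrix (Fin 2) (Fin 2) ℂ, Q * (A * flipMᵀ) * epsM * (flipM * B) =
      Q * A * (flipMᵀ * epsM * flipM) * B from fun Q A B => by simp [Matrix.mul_assoc],
      flip_eps_flip]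
    simp [pow_succ, Matrix.mul_assoc]

theorem exists_word_ne (l : ℕ → Fin 4) (k : ℕ) : ∃ P : Matrix (Fin 2) (Fin 2) ℂ,
    (preM (fun j => P * fourMat (l j)) (2 * k) *
      letterM (fun j => P * fourMat (l j)) (2 * k)) 0 0 ≠ 0 := by
  set W := preM (fun j => fourMat (l j)) (2 * k) * (fourMat (l (2 * k)))ᵀ with hW
  have hdet : W.det ≠ 0 := by simp [hW, det_preM, det_fourMat]
  by_cases h : W 0 0 = 0
  · refine ⟨flipM, ?_⟩
    have h' : W 0 1 ≠ 0 := fun h1 => hdet (by simp [Matrix.det_fin_two, h, h1])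
    rw [preM_flip, letterM_even, Matrix.transpose_mul, Matrix.smul_mul, ← Matrix.mul_assoc, ← hW]
    simp [flipM, Matrix.mul_apply, Fin.sum_univ_two, h']
  · exact ⟨1, by simpa [letterM_even, hW] using h⟩

/-! ### Antisymmetrization along columns -/

theorem pathVec_apply (k : ℕ) {r : ℕ} (A : Fin r → Fin 2 → Fin 2 → ℂ)
    (L : Fin (2 * k + 1) → Fin r) (M : ℕ → Matrix (Fin 2) (Fin 2) ℂ)
    (hM : ∀ v : Fin (2 * k + 1), M v = A (L v)) :
    pathVec k A L = (preM M (2 * k) * letterM M (2 * k)) 0 0 := by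
  rw [← sum_pathTerm]
  simp only [pathVec, Finset.sum_apply, Pi.smul_apply, smul_eq_mul]
  refine sum_congr rfl fun p _ => sum_congr rfl fun q _ => ?_
  simp only [pathTerm, uR, uC, pathFam, hM]
  ring

/-- The four tensors of the path. -/
def fourTensor (P : Matrix (Fin 2) (Fin 2) ℂ) (r : Fin 4) : Fin 2 → Fin 2 → ℂ :=
  fun a b => (P * fourMat r) a b

theorem pathVec_swap (k : ℕ) (P : Matrix (Fin 2) (Fin 2) ℂ) (L : Fin (2 * k + 1) → Fin 4)
    {x y : Fin (2 * k + 1)} (hxy : (y : ℕ) = x + 1) (h : L x ≠ L y) :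
    pathVec k (fourTensor P) (L ∘ Equiv.swap x y) = -pathVec k (fourTensor P) L := by
  let l : ℕ → Fin 4 := fun j => if hj : j < 2 * k + 1 then L ⟨j, hj⟩ else 0
  have hl : ∀ v : Fin (2 * k + 1), l v = L v := fun v => dif_pos v.isLt
  rw [pathVec_apply k _ L (fun j => P * fourMat (l j)) (fun v => by rw [hl]; rfl),
    pathVec_apply k _ (L ∘ Equiv.swap x y)
      (fun j => P * fourMat (l (Equiv.swap (x : ℕ) (x + 1) j))) fun v => by
      rw [← hxy, Fin.val_injective.swap_apply, hl]; rfl]
  rw [word_swap P l (v := x) (by rw [← hxy, hl, hl]; exact h) (by omega)]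
  rfl

theorem colStab_const {k : ℕ} (P : Matrix (Fin 2) (Fin 2) ℂ) (row : Fin (2 * k + 1) → Fin 4)
    {col : Fin (2 * k + 1) → ℕ} (hinj : Function.Injective fun z => (row z, col z))
    (hmono : Monotone col) : ∀ (n : ℕ) (c : Equiv.Perm (Fin (2 * k + 1))),
      (∀ z : Fin (2 * k + 1), n ≤ (z : ℕ) → c z = z) → col ∘ c = col →
      (((Equiv.Perm.sign c : ℤˣ) : ℤ) : ℂ) * pathVec k (fourTensor P) (row ∘ c) =
        pathVec k (fourTensor P) row := by
  intro n
  induction n with
  | zero =>
    intro c hc _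
    obtain rfl : c = 1 := Equiv.ext fun z => hc z (Nat.zero_le _)
    simp
  | succ n ih =>
    suffices H : ∀ d, ∀ c : Equiv.Perm (Fin (2 * k + 1)),
        (∀ z : Fin (2 * k + 1), n + 1 ≤ (z : ℕ) → c z = z) → col ∘ c = col →
        (∀ x, ((c x : Fin _) : ℕ) = n → n - (x : ℕ) ≤ d) →
        (((Equiv.Perm.sign c : ℤˣ) : ℤ) : ℂ) * pathVec k (fourTensor P) (row ∘ c) =
          pathVec k (fourTensor P) row from
      fun c h1 h2 => H n c h1 h2 fun x _ => Nat.sub_le _ _
    intro d
    induction d with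
    | zero =>
      intro c h1 h2 h3
      refine ih c (fun z hz => ?_) h2
      rcases eq_or_lt_of_le hz with hz' | hz'
      · by_contra hne
        have hx := h3 (c.symm z) (by rw [Equiv.apply_symm_apply]; exact hz'.symm)
        have hgt : z < c.symm z := by
          have hne' : c.symm z ≠ z := fun e => hne (by
            have := congrArg c e
            rwa [Equiv.apply_symm_apply, eq_comm] at this)
          have : (z : ℕ) ≠ (c.symm z : ℕ) := fun e => hne' (Fin.ext e.symm)
          exact Fin.lt_def.2 (by omega)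
        have := h1 (c.symm z) (by have := Fin.lt_def.1 hgt; omega)
        rw [Equiv.apply_symm_apply] at this
        exact hgt.ne this
      · exact h1 z hz'
    | succ d ihd =>
      intro c h1 h2 h3
      by_cases hd : ∀ x, ((c x : Fin _) : ℕ) = n → n - (x : ℕ) ≤ d
      · exact ihd c h1 h2 hd
      push Not at hd
      obtain ⟨x, hx, hxd⟩ := hd
      let y : Fin (2 * k + 1) := ⟨x + 1, by have := (c x).isLt; omega⟩
      have hxy : x ≤ y ∧ y ≤ c x := ⟨Fin.le_def.2 (by simp [y]), Fin.le_def.2 (by simp [y]; omega)⟩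
      have hcol : col x = col y := le_antisymm (hmono hxy.1)
        ((hmono hxy.2).trans_eq (congrFun h2 x))
      have hne : row (c x) ≠ row (c y) := fun e => by
        have := c.injective (hinj (Prod.ext e
          ((congrFun h2 x).trans (hcol.trans (congrFun h2 y).symm))))
        simp [y, Fin.ext_iff] at this
      have hxy' : x ≠ y := fun e => by simp [y, Fin.ext_iff] at e
      have := ihd (c * Equiv.swap x y) (fun z hz => ?_) (funext fun z => ?_) (fun z hz => ?_)
      · rw [Equiv.Perm.coe_mul, ← Function.comp_assoc, pathVec_swap k P (row ∘ c) rfl hne,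
          Equiv.Perm.sign_mul, Equiv.Perm.sign_swap hxy'] at this
        simpa using this
      · have hxn : (x : ℕ) < n := by omega
        rw [Equiv.Perm.mul_apply, Equiv.swap_apply_of_ne_of_ne (fun e => by subst e; omega)
          (fun e => by subst e; simp [y] at hz; omega)]
        exact h1 z hz
      · simp only [Function.comp_apply, Equiv.Perm.mul_apply, Equiv.swap_apply_def]
        split
        · next e => subst e; exact (congrFun h2 y).trans hcol.symm
        · split
          · next e => subst e; exact (congrFun h2 x).trans hcol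
          · exact congrFun h2 z
      · have : Equiv.swap x y z = x := c.injective (Fin.ext (hz.trans hx.symm))
        obtain rfl : z = y := by
          have := congrArg (Equiv.swap x y) this
          simpa using this
        have := h3 x hx
        simp [y]; omega

theorem exists_path_detect (k : ℕ) (row : Fin (2 * k + 1) → Fin 4) (col : Fin (2 * k + 1) → ℕ)
    (hT : IsTab row col) :
    ∃ (π : Equiv.Perm (Fin (2 * k + 1))) (A : Fin 4 → Fin 2 → Fin 2 → ℂ),
      pair (act π (pathVec k A)) (poly row col) ≠ 0 := by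
  classical
  let π := Tuple.sort col
  let l : ℕ → Fin 4 := fun j => if hj : j < 2 * k + 1 then row (π ⟨j, hj⟩) else 0
  obtain ⟨P, hP⟩ := exists_word_ne l k
  refine ⟨π, fourTensor P, ?_⟩
  set f := pathVec k (fourTensor P) with hf
  have hval : f (row ∘ π) ≠ 0 := by
    rw [hf, pathVec_apply k _ (row ∘ π) (fun j => P * fourMat (l j))
      fun v => by simp only [l, dif_pos v.isLt]; rfl]
    exact hP
  have hmono : Monotone (col ∘ π) := Tuple.monotone_sort col
  have hinj : Function.Injective fun z => ((row ∘ π) z, (col ∘ π) z) :=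
    hT.1.comp π.injective
  have key : ∀ c : Equiv.Perm (Fin (2 * k + 1)), col ∘ c = col →
      (((Equiv.Perm.sign c : ℤˣ) : ℤ) : ℂ) * f ((row ∘ c) ∘ π) = f (row ∘ π) := fun c hc => by
    have e := colStab_const P (row ∘ π) hinj hmono (2 * k + 1) (π.symm.permCongr c)
      (fun z hz => absurd z.isLt (by omega))
      (funext fun z => by simpa [Equiv.permCongr_apply] using congrFun hc (π z))
    rw [Equiv.Perm.sign_permCongr] at e
    convert e using 2
    congr 1
    funext z
    simp
  have hsum : pair (act π f) (poly row col) =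
      (#{c : Equiv.Perm (Fin (2 * k + 1)) | col ∘ c = col} : ℂ) * f (row ∘ π) := by
    rw [Finset.card_filter, Nat.cast_sum, Finset.sum_mul]
    simp only [pair, act_apply, poly, Finset.mul_sum]
    rw [Finset.sum_comm]
    refine sum_congr rfl fun c _ => ?_
    by_cases hc : col ∘ c = col
    · simp only [hc, true_and, if_true, mul_ite, mul_zero, Finset.sum_ite_eq,
        Finset.mem_univ, Nat.cast_one, one_mul]
      rw [← key c hc, mul_comm]
    · simp [hc]
  rw [hsum]
  refine mul_ne_zero (Nat.cast_ne_zero.2 (Finset.card_ne_zero.2 ⟨1, ?_⟩)) hval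
  simp

end Vale.Agent.P197.Saxl
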