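import Vale.Agent.P197.Saxl.SpechtHW
import Mathlib.LinearAlgebra.Dual.Lemmas
import Mathlib.LinearAlgebra.Pi

/-!
# P197: the Specht detection lemma
-/

namespace Vale.Agent.P197.Saxl

open Finset

variable {α : Type} [Fintype α] [DecidableEq α] {r : ℕ}

/-- The restriction to a content. -/
def cutMap (ν : Fin r → ℕ) : Fn α (Fin r) →ₗ[ℂ] Fn α (Fin r) where
  toFun x L := if content L = ν then x L else 0
  map_add' x y := funext fun L => by simp only [Pi.add_apply]; split_ifs <;> simp
  map_smul' c x := funext fun L => by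
    simp only [Pi.smul_apply, smul_eq_mul, RingHom.id_apply]; split_ifs <;> simp

theorem cutMap_apply (ν : Fin r → ℕ) (x : Fn α (Fin r)) (L : α → Fin r) :
    cutMap ν x L = if content L = ν then x L else 0 := rfl

theorem cutMap_act (ν : Fin r → ℕ) (g : Equiv.Perm α) (x : Fn α (Fin r)) :
    cutMap ν (act g x) = act g (cutMap ν x) :=
  funext fun L => by simp [cutMap_apply, act_apply, content_comp]

theorem raiseMap_act (i j : Fin r) (g : Equiv.Perm α) (x : Fn α (Fin r)) :
    raiseMap i j (act g x) = act g (raiseMap i j x) := by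
  funext M
  show raise i j (act g x) M = raise i j x (M ∘ ⇑g)
  simp only [raise, act_apply]
  refine Fintype.sum_equiv g.symm _ _ fun z => ?_
  have e : Function.update M z j ∘ ⇑g = Function.update (M ∘ ⇑g) (g.symm z) j :=
    Function.update_comp_equiv M g z j
  simp [e]

/-- The potential of a content. -/
def potential (ν : Fin r → ℕ) : ℕ := ∑ a, ν a * (r - a)

theorem potential_lt {i j : Fin r} (hij : i < j) {ν μ : Fin r → ℕ}
    (h : ∀ x, μ x + (if j = x then 1 else 0) = ν x + (if i = x then 1 else 0)) :
    potential ν < potential μ := by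
  have hsum : potential μ + (r - j) = potential ν + (r - i) := by
    have := congrArg (fun f : Fin r → ℕ => ∑ a, f a * (r - (a : ℕ))) (funext h)
    simpa [potential, add_mul, Finset.sum_add_distrib] using this
  have := Fin.lt_def.1 hij
  have := j.isLt
  omega

/-- The Specht detection lemma. -/
theorem exists_poly_detect {α W : Type} [Fintype α] [DecidableEq α] [AddCommGroup W] [Module ℂ W]
    {r : ℕ} (ρ : Representation ℂ (Equiv.Perm α) W) (h : Fn α (Fin r) →ₗ[ℂ] W)
    (hh : IsEquiv ρ h) (hne : h ≠ 0) :
    ∃ (row : α → Fin r) (col : α → ℕ) (θ : Fn α (Fin r) →ₗ[ℂ] Fn α (Fin r)),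
      IsTab row col ∧ (∀ g x, θ (act g x) = act g (θ x)) ∧
        ∀ x, pair x (poly row col) ≠ 0 → h (θ x) ≠ 0 := by
  classical
  let S : Finset (Fin r → ℕ) := (Finset.univ.image (content : (α → Fin r) → Fin r → ℕ)).filter
    fun ν => ∃ θ : Fn α (Fin r) →ₗ[ℂ] Fn α (Fin r),
      (∀ g x, θ (act g x) = act g (θ x)) ∧ ∃ x, h (θ (cutMap ν x)) ≠ 0
  have hSne : S.Nonempty := by
    by_contra hS
    refine hne (LinearMap.ext fun x => ?_)
    have hx : x = ∑ ν ∈ Finset.univ.image (content : (α → Fin r) → Fin r → ℕ), cutMap ν x := by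
      funext L
      simp [cutMap_apply]
    rw [hx, map_sum, LinearMap.zero_apply]
    refine Finset.sum_eq_zero fun ν hν => ?_
    by_contra hx'
    exact hS ⟨ν, Finset.mem_filter.2 ⟨hν, LinearMap.id, fun _ _ => rfl, x, hx'⟩⟩
  obtain ⟨ν, hνS, hνmax⟩ := Finset.exists_max_image S potential hSne
  obtain ⟨-, θ, hθ, x0, hx0⟩ := Finset.mem_filter.1 hνS
  obtain ⟨φ, hφ⟩ := Module.Projective.exists_dual_ne_zero ℂ hx0
  let f : Fn α (Fin r) →ₗ[ℂ] ℂ := φ ∘ₗ h ∘ₗ θ ∘ₗ cutMap ν
  let y : Fn α (Fin r) := fun L => f (Pi.single L 1)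
  have hf : ∀ x, f x = pair x y := fun x => by
    conv_lhs => rw [← Finset.univ_sum_single x]
    rw [map_sum]
    refine Finset.sum_congr rfl fun L _ => ?_
    rw [show Pi.single L (x L) = x L • (Pi.single L (1 : ℂ) : Fn α (Fin r)) by
      rw [← Pi.single_smul, smul_eq_mul, mul_one], map_smul, smul_eq_mul]
  have hs : ∀ L, content L ≠ ν → y L = 0 := fun L hL => by
    have : cutMap ν (Pi.single L 1 : Fn α (Fin r)) = 0 := funext fun M => by
      rw [cutMap_apply, Pi.zero_apply, ite_eq_right_iff]
      intro hM
      exact Pi.single_eq_of_ne (fun e => hL (by rw [← e]; exact hM)) _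
    simp [y, f, this]
  have hHW : IsHW y := by
    intro i j hij
    funext M
    have h1 : raise i j y M = f (raiseMap j i (Pi.single M 1)) := by
      rw [hf]
      show _ = pair (raise j i (Pi.single M 1)) y
      rw [pair_raise, pair, Finset.sum_eq_single M (fun L _ hL => by simp [hL]) (by simp)]
      simp
    rw [h1, Pi.zero_apply]
    by_contra hne'
    have hne'' : h (θ (cutMap ν (raiseMap j i (Pi.single M 1)))) ≠ 0 := fun e => hne' (by
      simp [f, e])
    have h2 : ∃ L z, content L = ν ∧ L z = j ∧ Function.update L z i = M := by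
      by_contra hnone
      push Not at hnone
      refine hne'' ?_
      have : cutMap ν (raiseMap j i (Pi.single M 1 : Fn α (Fin r))) = 0 := funext fun L => by
        rw [cutMap_apply, Pi.zero_apply, ite_eq_right_iff]
        intro hL
        show raise j i (Pi.single M 1 : Fn α (Fin r)) L = 0
        refine Finset.sum_eq_zero fun z _ => ?_
        rw [ite_eq_right_iff]
        intro hz
        exact Pi.single_eq_of_ne (hnone L z hL hz) _
      simp [this]
    obtain ⟨L, z, hL, hz, hM⟩ := h2
    have hμ : ∀ x, content M x + (if j = x then 1 else 0) = ν x + (if i = x then 1 else 0) := by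
      intro x
      rw [← hM, ← hL, ← hz]
      exact content_update L
    have hmem : content M ∈ S := by
      refine Finset.mem_filter.2 ⟨Finset.mem_image_of_mem _ (Finset.mem_univ M),
        θ ∘ₗ cutMap ν ∘ₗ raiseMap j i, fun g x => ?_, Pi.single M 1, ?_⟩
      · simp [raiseMap_act, cutMap_act, hθ]
      · have : cutMap (content M) (Pi.single M 1 : Fn α (Fin r)) = Pi.single M 1 :=
          funext fun L => by
            rcases eq_or_ne L M with rfl | hLM
            · simp [cutMap_apply]
            · simp [cutMap_apply, hLM]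
        simpa [this] using hne''
    exact absurd (hνmax _ hmem) (not_le.2 (potential_lt hij hμ))
  have hyne : y ≠ 0 := fun e => hφ (by
    have := hf x0
    simpa [f, e, pair] using this)
  obtain ⟨row, col, hT, hc, hp⟩ := hHW.exists_pair hs hyne
  have hcut : cutMap ν (poly row col) = poly row col := funext fun L => by
    rw [cutMap_apply, ite_eq_left_iff]
    intro hL
    exact (poly_content_zero (hc ▸ hL)).symm
  have hnz : h (θ (poly row col)) ≠ 0 := fun e => hp (by
    have := hf (poly row col)
    simp only [f, LinearMap.comp_apply, hcut, e, map_zero] at this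
    rw [this]
    simp [pair, mul_comm])
  refine ⟨row, col, θ ∘ₗ cutMap ν, hT, fun g x => by simp [cutMap_act, hθ], fun x hx => ?_⟩
  intro hzero
  have hpair : pair (cutMap ν x) (poly row col) = pair x (poly row col) := by
    refine Finset.sum_congr rfl fun L _ => ?_
    rw [cutMap_apply]
    split_ifs with hL
    · rfl
    · rw [poly_content_zero (hc ▸ hL)]; simp
  have hkey := congrArg (fun v => h (θ v)) (sum_colStab_act hT (x := cutMap ν x) fun L hL => by
    rw [cutMap_apply, if_neg (hc ▸ hL)])
  have hh' : ∀ g v, h (act g v) = ρ g (h v) := hh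
  simp only [map_sum, map_smul, hθ, hh', hpair] at hkey
  rw [LinearMap.comp_apply] at hzero
  simp only [hzero, map_zero, smul_zero, Finset.sum_const_zero] at hkey
  exact smul_ne_zero hx hnz hkey.symm

end Vale.Agent.P197.Saxl
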