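import Vale.Agent.P197.Saxl.Defs

/-!
# P197: the step from a smaller staircase

A set is split into an inner part and a rim. A bilinear map that detects the inner pair of vectors,
with values fixed by a stabiliser on the rim, and a family of rim tensors give a bilinear map that
detects the whole pair.
-/

namespace Vale.Agent.P197.Saxl

open Finset

theorem good_step {A B C LA LC P R : Type} [Fintype A] [DecidableEq A] [Fintype B] [DecidableEq B]
    [Fintype C] [DecidableEq C] [Fintype P] [DecidableEq R] {W : Type} [AddCommGroup W]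
    [Module ℂ W] (ρ : Representation ℂ (Equiv.Perm C) W) (e : C ≃ A ⊕ B)
    (eRA eCA : Fn A LA) (eRC eCC : Fn C LC)
    (IH : ∀ (W' : Type) [AddCommGroup W'] [Module ℂ W'] (ρ' : Representation ℂ (Equiv.Perm A) W'),
      Nontrivial W' →
        ∃ Φ : Fn A LA →ₗ[ℂ] Fn A LA →ₗ[ℂ] W', IsEquiv₂ ρ' Φ ∧ Φ eRA eCA ≠ 0)
    (ι : (A → LA) → (B → P) → (C → LC))
    (hι : ∀ L p (g : Equiv.Perm A × Equiv.Perm B),
      ι L p ∘ ⇑(splitHom e g) = ι (L ∘ g.1) (p ∘ g.2))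
    (uR uC : Fn B P)
    (hR : ∃ s : ℂ, s ≠ 0 ∧ ∀ L p, eRC (ι L p) = s * (eRA L * uR p))
    (hC : ∃ s : ℂ, s ≠ 0 ∧ ∀ L p, eCC (ι L p) = s * (eCA L * uC p))
    (force : ∀ L L' p q (g : Equiv.Perm C), eRC (ι L p ∘ g) ≠ 0 → eCC (ι L' q ∘ g) ≠ 0 →
      g ∈ (splitHom e).range)
    (c0 : B → R) {w : W} (hw0 : w ≠ 0)
    (hw : ∀ g : Equiv.Perm B, c0 ∘ g = c0 → ρ (splitHom e (1, g)) w = w)
    (gadget : ∀ h : Fn B R →ₗ[ℂ] W,
      IsEquiv (ρ.comp ((splitHom e).comp (MonoidHom.inr _ _))) h → h ≠ 0 →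
        ∃ F : (B → P) → (B → P) → Fn B R,
          (∀ g p q, act g (F p q) = F (p ∘ ⇑g⁻¹) (q ∘ ⇑g⁻¹)) ∧
            h (∑ p, ∑ q, (uR p * uC q) • F p q) ≠ 0) :
    ∃ Φ : Fn C LC →ₗ[ℂ] Fn C LC →ₗ[ℂ] W, IsEquiv₂ ρ Φ ∧ Φ eRC eCC ≠ 0 := by
  classical
  set lh : Equiv.Perm A →* Equiv.Perm C := (splitHom e).comp (MonoidHom.inl _ _) with hlh
  set rh : Equiv.Perm B →* Equiv.Perm C := (splitHom e).comp (MonoidHom.inr _ _) with hrh
  have hcomm : ∀ a b, rh b * lh a = lh a * rh b := fun a b => by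
    simp [hlh, hrh, ← map_mul]
  have hmul : ∀ x y (v : W), ρ (x * y) v = ρ x (ρ y v) := fun x y v => by
    rw [map_mul]; rfl
  -- the vectors fixed by the stabiliser of `c0`
  let W₁ : Submodule ℂ W :=
    { carrier := {v | ∀ g : Equiv.Perm B, c0 ∘ g = c0 → ρ (rh g) v = v}
      zero_mem' := fun g _ => map_zero _
      add_mem' := fun hx hy g hg => by rw [map_add, hx g hg, hy g hg]
      smul_mem' := fun c x hx g hg => by rw [map_smul, hx g hg] }
  have hst : ∀ a, ∀ v ∈ W₁, ρ (lh a) v ∈ W₁ := fun a v hv g hg => by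
    rw [← hmul, hcomm, hmul, hv g hg]
  let ρ₁ : Representation ℂ (Equiv.Perm A) W₁ :=
    { toFun := fun a => (ρ (lh a)).restrict (hst a)
      map_one' := LinearMap.ext fun v => Subtype.ext (by simp)
      map_mul' := fun a b => LinearMap.ext fun v => Subtype.ext (by simp) }
  have hnt : Nontrivial W₁ := ⟨⟨w, fun g hg => hw g hg⟩, 0, fun h0 => hw0 (congrArg Subtype.val h0)⟩
  obtain ⟨Φ₁, hΦ₁, hΦ₁0⟩ := IH W₁ ρ₁ hnt
  set Ψ : Fn A LA →ₗ[ℂ] Fn A LA →ₗ[ℂ] W := Φ₁.compr₂ W₁.subtype with hΨ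
  have hΨe : ∀ a x y, Ψ (act a x) (act a y) = ρ (lh a) (Ψ x y) := fun a x y =>
    congrArg Subtype.val (hΦ₁ a x y)
  set w₂ : W := Ψ eRA eCA with hw₂
  have hw₂0 : w₂ ≠ 0 := fun h0 => hΦ₁0 (Subtype.ext h0)
  have hw₂fix : ∀ g : Equiv.Perm B, c0 ∘ g = c0 → ρ (rh g) w₂ = w₂ := (Φ₁ eRA eCA).2
  -- the bilinear maps of the rim tensors
  let Bm : Fn B R →ₗ[ℂ] Fn A LA →ₗ[ℂ] Fn A LA →ₗ[ℂ] W :=
    ∑ g : Equiv.Perm B, (LinearMap.proj (c0 ∘ g) : Fn B R →ₗ[ℂ] ℂ).smulRight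
      (Ψ.compr₂ (ρ (rh g⁻¹)))
  let h : Fn B R →ₗ[ℂ] W :=
    ∑ g : Equiv.Perm B, (LinearMap.proj (c0 ∘ g) : Fn B R →ₗ[ℂ] ℂ).smulRight (ρ (rh g⁻¹) w₂)
  have hBh : ∀ x, Bm x eRA eCA = h x := fun x => by
    simp [Bm, h, hw₂, LinearMap.sum_apply]
  have hBe : ∀ x a X Y, Bm x (act a X) (act a Y) = ρ (lh a) (Bm x X Y) := fun x a X Y => by
    simp only [Bm, LinearMap.sum_apply, LinearMap.smulRight_apply, LinearMap.smul_apply,
      LinearMap.compr₂_apply, hΨe, map_sum, map_smul]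
    exact Finset.sum_congr rfl fun g _ => by rw [← hmul, hcomm, hmul]
  have hh : IsEquiv (ρ.comp rh) h := fun u x => by
    simp only [h, LinearMap.sum_apply, LinearMap.smulRight_apply, LinearMap.proj_apply, act_apply,
      map_sum, map_smul, MonoidHom.comp_apply]
    refine Fintype.sum_equiv (Equiv.mulRight u) _ _ fun g => ?_
    simp only [Equiv.coe_mulRight, mul_inv_rev, Equiv.Perm.coe_mul, ← hmul, ← map_mul,
      mul_inv_cancel_left]
    rfl
  have hne : h ≠ 0 := fun h0 => by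
    have h1 := congrArg (fun f : Fn B R →ₗ[ℂ] W => f (Pi.single c0 1)) h0
    simp only [h, LinearMap.sum_apply, LinearMap.smulRight_apply, LinearMap.proj_apply,
      LinearMap.zero_apply] at h1
    rw [← Finset.sum_filter_add_sum_filter_not univ (fun g : Equiv.Perm B => c0 ∘ g = c0)] at h1
    rw [Finset.sum_eq_zero (s := univ.filter fun g : Equiv.Perm B => ¬ c0 ∘ g = c0)
      (fun g hg => by simp [Pi.single_eq_of_ne (Finset.mem_filter.1 hg).2]), add_zero,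
      Finset.sum_congr rfl (g := fun _ => w₂) (fun g hg => by
        have e1 := (Finset.mem_filter.1 hg).2
        rw [e1, Pi.single_eq_same, one_smul]
        refine hw₂fix g⁻¹ (funext fun z => ?_)
        simpa using (congrFun e1 (g⁻¹ z)).symm),
      Finset.sum_const, ← Nat.cast_smul_eq_nsmul ℂ, smul_eq_zero] at h1
    rcases h1 with h1 | h1
    · rw [Nat.cast_eq_zero, Finset.card_eq_zero, Finset.filter_eq_empty_iff] at h1
      exact h1 (Finset.mem_univ 1) rfl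
    · exact hw₂0 h1
  obtain ⟨F, hF, hX⟩ := gadget h hh hne
  obtain ⟨s, hs, hRs⟩ := hR
  obtain ⟨t, ht, hCt⟩ := hC
  -- the averaged map
  let res : (B → P) → Fn C LC →ₗ[ℂ] Fn A LA := fun p => LinearMap.funLeft ℂ ℂ fun L => ι L p
  let Φ : Fn C LC →ₗ[ℂ] Fn C LC →ₗ[ℂ] W :=
    ∑ g : Equiv.Perm C, ∑ p, ∑ q,
      ((Bm (F p q)).compl₁₂ ((res p).comp (act g⁻¹)) ((res q).comp (act g⁻¹))).compr₂ (ρ g)
  refine ⟨Φ, fun u x y => ?_, ?_⟩
  · simp only [Φ, LinearMap.sum_apply, LinearMap.compr₂_apply, LinearMap.compl₁₂_apply,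
      LinearMap.comp_apply, map_sum]
    refine Fintype.sum_equiv (Equiv.mulLeft u⁻¹) _ _ fun g => ?_
    simp only [Equiv.coe_mulLeft, ← hmul, mul_inv_cancel_left, mul_inv_rev, inv_inv, ← act_mul]
  set v : W := (s * t) • h (∑ p, ∑ q, (uR p * uC q) • F p q) with hv
  have hterm : ∀ g : Equiv.Perm C, (∑ p, ∑ q,
      ρ g (Bm (F p q) (res p (act g⁻¹ eRC)) (res q (act g⁻¹ eCC)))) =
      if g ∈ (splitHom e).range then v else 0 := by
    intro g
    split_ifs with hg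
    · obtain ⟨⟨a, b⟩, rfl⟩ := hg
      have e1 : ∀ p, res p (act (splitHom e (a, b))⁻¹ eRC) =
          (s * uR (p ∘ ⇑b⁻¹)) • act a⁻¹ eRA := fun p => funext fun L => by
        simp only [res, LinearMap.funLeft_apply, act_apply, ← map_inv, Prod.inv_mk, hι, hRs,
          Pi.smul_apply, smul_eq_mul]
        ring
      have e2 : ∀ p, res p (act (splitHom e (a, b))⁻¹ eCC) =
          (t * uC (p ∘ ⇑b⁻¹)) • act a⁻¹ eCA := fun p => funext fun L => by
        simp only [res, LinearMap.funLeft_apply, act_apply, ← map_inv, Prod.inv_mk, hι, hCt,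
          Pi.smul_apply, smul_eq_mul]
        ring
      have e3 : splitHom e (a, b) * lh a⁻¹ = rh b := by
        simp [hlh, hrh, ← map_mul]
      have e4 : ∀ p q, ρ (rh b) (h (F p q)) = h (F (p ∘ ⇑b⁻¹) (q ∘ ⇑b⁻¹)) := fun p q => by
        rw [← hF]; exact (hh b _).symm
      simp only [e1, e2, map_smul, LinearMap.smul_apply, hBe, hBh, ← hmul, e3, e4, smul_smul]
      rw [hv, map_sum, Finset.smul_sum]
      refine Fintype.sum_equiv (Equiv.arrowCongr b (Equiv.refl P)) _ _ fun p => ?_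
      rw [map_sum, Finset.smul_sum]
      refine Fintype.sum_equiv (Equiv.arrowCongr b (Equiv.refl P)) _ _ fun q => ?_
      simp only [map_smul, smul_smul]
      refine congrArg₂ (· • ·) ?_ rfl
      show _ = s * t * (uR (p ∘ ⇑b⁻¹) * uC (q ∘ ⇑b⁻¹))
      ring
    · refine Finset.sum_eq_zero fun p _ => Finset.sum_eq_zero fun q _ => ?_
      rcases eq_or_ne (res p (act g⁻¹ eRC)) 0 with h1 | h1
      · simp [h1]
      rcases eq_or_ne (res q (act g⁻¹ eCC)) 0 with h2 | h2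
      · simp [h2]
      obtain ⟨L, hL⟩ := Function.ne_iff.1 h1
      obtain ⟨L', hL'⟩ := Function.ne_iff.1 h2
      exact absurd ((Subgroup.inv_mem_iff _).1 (force L L' p q g⁻¹ hL hL')) hg
  simp only [Φ, LinearMap.sum_apply, LinearMap.compr₂_apply, LinearMap.compl₁₂_apply,
    LinearMap.comp_apply, hterm, ← Finset.sum_filter, Finset.sum_const]
  rw [← Nat.cast_smul_eq_nsmul ℂ, smul_ne_zero_iff]
  refine ⟨Nat.cast_ne_zero.2 (Finset.card_ne_zero.2 ⟨1, ?_⟩), smul_ne_zero (mul_ne_zero hs ht) hX⟩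
  exact Finset.mem_filter.2 ⟨Finset.mem_univ _, one_mem _⟩

end Vale.Agent.P197.Saxl
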