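import Vale.Agent.P197.Saxl.ColCount
import Vale.Agent.P197.Saxl.Descent
import Vale.Agent.P197.Saxl.Parity
import Vale.Agent.P197.Saxl.Path
import Vale.Agent.P197.Saxl.Specht
import Vale.Agent.P197.Saxl.Forcing
import Vale.Agent.P197.Saxl.Glue
import Vale.Agent.P197.Saxl.Step

/-!
# P197: induction on the staircase

Every nonzero representation of the permutations of the cells of a staircase detects the pair of
polytabloids.
-/

namespace Vale.Agent.P197.Saxl

open Finset

/-- The staircase with `m` rows has `m * (m + 1) / 2` cells. -/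
theorem card_cell_eq (m : ℕ) : Fintype.card (Cell m) = m * (m + 1) / 2 := by
  induction m with
  | zero => exact Fintype.card_eq_zero_iff.2 ⟨fun z => z.1.1.elim0⟩
  | succ n ih =>
    rw [Fintype.card_congr (split₁ n), Fintype.card_sum, ih, Fintype.card_fin,
      show (n + 1) * (n + 1 + 1) = n * (n + 1) + 2 * (n + 1) by ring,
      Nat.add_mul_div_left _ _ two_pos]

/-- The polytabloid pairs nontrivially with itself. -/
theorem pair_poly_self_ne_zero {α : Type} [Fintype α] [DecidableEq α] {r : ℕ} {row : α → Fin r}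
    {col : α → ℕ} (hT : IsTab row col) : pair (poly row col) (poly row col) ≠ 0 := by
  classical
  set z : (α → Fin r) → ℤ := fun L => ∑ c : Equiv.Perm α,
    if col ∘ c = col ∧ row ∘ c = L then ((Equiv.Perm.sign c : ℤˣ) : ℤ) else 0 with hz
  have e : ∀ L, poly row col L = (z L : ℂ) := fun L => by
    simp only [hz, poly, Int.cast_sum]
    refine Finset.sum_congr rfl fun c _ => ?_
    split_ifs <;> simp
  intro h0
  simp only [pair, e, ← Int.cast_mul, ← Int.cast_sum, Int.cast_eq_zero] at h0
  have h1 := (Finset.sum_eq_zero_iff_of_nonneg (fun L _ => mul_self_nonneg (z L))).1 h0 row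
    (Finset.mem_univ _)
  have h2 := e row
  rw [poly_self hT.1, mul_self_eq_zero.1 h1, Int.cast_zero] at h2
  exact one_ne_zero h2

/-- A translate of a vector fixed by row permutations is fixed by a stabiliser on the rim. -/
theorem exists_rim_fixed {A B C : Type} [Fintype C] [DecidableEq C] {W : Type} [AddCommGroup W]
    [Module ℂ W] (ρ : Representation ℂ (Equiv.Perm C) W) (e : C ≃ A ⊕ B) {r k : ℕ}
    (row : C → Fin r) {w₀ : W} (hw₀ : w₀ ≠ 0)
    (hfix : ∀ g : Equiv.Perm C, row ∘ g = row → ρ g w₀ = w₀) [Fintype B]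
    (hk : Fintype.card B ≤ (univ.filter fun z => (row z : ℕ) < k).card) :
    ∃ (c0 : B → Fin k) (w : W), w ≠ 0 ∧
      ∀ g : Equiv.Perm B, c0 ∘ g = c0 → ρ (splitHom e (1, g)) w = w := by
  classical
  obtain ⟨f⟩ : Nonempty (B ↪ {z : C // (row z : ℕ) < k}) :=
    Function.Embedding.nonempty_of_card_le (by rwa [Fintype.card_subtype])
  have hi : Function.Injective fun b => e.symm (Sum.inr b) :=
    e.symm.injective.comp Sum.inr_injective
  have hj : Function.Injective fun b => (f b : C) := Subtype.val_injective.comp f.injective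
  let q : {z // z ∈ Set.range fun b => e.symm (Sum.inr b)} ≃ {z // z ∈ Set.range fun b => (f b : C)} :=
    (Equiv.ofInjective _ hi).symm.trans (Equiv.ofInjective _ hj)
  let τ : Equiv.Perm C := q.extendSubtype
  have hτ : ∀ b, τ (e.symm (Sum.inr b)) = f b := fun b => by
    refine (Equiv.extendSubtype_apply_of_mem q _ ⟨b, rfl⟩).trans ?_
    simp only [q, Equiv.trans_apply, Equiv.ofInjective_apply]
    congr 2
    exact (Equiv.ofInjective _ hi).symm_apply_eq.2 rfl
  refine ⟨fun b => ⟨row (f b), (f b).2⟩, ρ τ⁻¹ w₀, fun h0 => hw₀ ?_, fun g hg => ?_⟩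
  · have := congrArg (ρ τ) h0
    simpa using this
  have hrow : row ∘ ⇑(τ * splitHom e (1, g) * τ⁻¹) = row := by
    funext z
    obtain ⟨y, rfl⟩ := τ.surjective z
    simp only [Function.comp_apply, Equiv.Perm.mul_apply, Equiv.Perm.coe_inv,
      Equiv.symm_apply_apply, splitHom_apply]
    obtain ⟨x, rfl⟩ := e.symm.surjective y
    cases x with
    | inl a => simp
    | inr b =>
      simp only [Equiv.apply_symm_apply, Sum.map_inr, hτ]
      have e0 := congrFun hg b
      simp only [Function.comp_apply, Fin.ext_iff] at e0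
      have e1 : (row (f (g b)) : ℕ) = row (f b) := e0
      exact Fin.ext e1
  have h1 := hfix _ hrow
  rw [map_mul, map_mul] at h1
  have h2 := congrArg (ρ τ⁻¹) h1
  simpa using h2

theorem good_all (m : ℕ) : ∀ (W : Type) [AddCommGroup W] [Module ℂ W]
    (ρ : Representation ℂ (Equiv.Perm (Cell m)) W), Nontrivial W → Good m ρ := by
  induction m using Nat.strong_induction_on with
  | _ m IH => ?_
  intro W _ _ ρ hW
  classical
  obtain ⟨v, hv⟩ := exists_ne (0 : W)
  let L₁ := Fintype.equivFin (Cell m)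
  let h : Fn (Cell m) (Fin (Fintype.card (Cell m))) →ₗ[ℂ] W :=
    ∑ g : Equiv.Perm (Cell m), (LinearMap.proj (⇑L₁ ∘ ⇑g)).smulRight (ρ g⁻¹ v)
  have hh : IsEquiv ρ h := fun u x => by
    simp only [h, LinearMap.sum_apply, LinearMap.smulRight_apply, LinearMap.proj_apply, act_apply,
      map_sum, map_smul]
    refine Fintype.sum_equiv (Equiv.mulRight u) _ _ fun g => ?_
    rw [← Module.End.mul_apply, ← map_mul]
    simp only [Equiv.coe_mulRight, mul_inv_rev, Equiv.Perm.coe_mul, mul_inv_cancel_left]
    rfl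
  have hne : h ≠ 0 := fun h0 => by
    have h1 := congrArg (fun f : _ →ₗ[ℂ] W => f (Pi.single (⇑L₁) 1)) h0
    simp only [h, LinearMap.sum_apply, LinearMap.smulRight_apply, LinearMap.proj_apply,
      LinearMap.zero_apply] at h1
    rw [Finset.sum_eq_single 1 (fun g _ hg => ?_) (by simp)] at h1
    · simp [hv] at h1
    · rw [Pi.single_eq_of_ne, zero_smul]
      exact fun e => hg (Equiv.ext fun z => L₁.injective (congrFun e z))
  obtain ⟨row, col, θ, hT, hθ, hdet⟩ := exists_poly_detect ρ h hh hne
  have hh' : IsEquiv ρ (h.comp θ) := fun g x => by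
    rw [LinearMap.comp_apply, LinearMap.comp_apply, hθ, hh]
  set w₀ : W := h (θ (Pi.single row 1)) with hw₀
  have hw₀0 : w₀ ≠ 0 := hdet _ (by
    rw [pair, Finset.sum_eq_single row (fun L _ hL => by simp [Pi.single_eq_of_ne hL]) (by simp),
      Pi.single_eq_same, one_mul, poly_self hT.1]
    exact one_ne_zero)
  have hfix : ∀ g : Equiv.Perm (Cell m), row ∘ g = row → ρ g w₀ = w₀ := fun g hg => by
    have e : act g (Pi.single row 1) = (Pi.single row 1 : Fn (Cell m) _) := by
      funext L
      rw [act_apply]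
      by_cases hL : L = row
      · rw [hL, hg]
      · rw [Pi.single_eq_of_ne hL, Pi.single_eq_of_ne]
        intro e1
        refine hL (funext fun z => ?_)
        have e2 := congrFun e1 (g⁻¹ z)
        have e3 := congrFun hg (g⁻¹ z)
        simp only [Function.comp_apply, Equiv.Perm.coe_inv, Equiv.apply_symm_apply] at e2 e3
        rw [e2, e3]
    exact (hh' g _).symm.trans (congrArg (h.comp θ) e)
  obtain _ | n := m
  · exact good_of_sign_fixed ρ hv fun g _ => by
      have : g = 1 := Equiv.ext fun z => absurd z.1.1.2 (Nat.not_lt_zero _)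
      simp [this]
  by_cases hB : n + 1 ≤ (univ.filter fun z => (row z : ℕ) < 1).card
  · obtain ⟨c0, w, hw, hwf⟩ := exists_rim_fixed ρ (split₁ n) row hw₀0 hfix
      (k := 1) (by simpa using hB)
    refine good_step ρ (split₁ n) (eR n) (eC n) (eR (n + 1)) (eC (n + 1))
      (fun W' _ _ ρ' hW' => IH n (Nat.lt_succ_self n) W' ρ' hW') glue₁ glue₁_comp
      (fun _ => 1) (fun _ => 1) ?_ ?_ (fun L L' p q g => mem_range_of_glue₁) c0 hw hwf ?_
    · simpa using eR_glue₁ n
    · simpa using eC_glue₁ n
    · intro h' _ h0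
      refine ⟨fun _ _ _ => 1, fun g p q => rfl, fun h1 => h0 (LinearMap.ext fun x => ?_)⟩
      simp only [Fintype.sum_unique, mul_one, one_smul] at h1
      have e : x = x default • (fun _ => (1 : ℂ)) := funext fun L => by
        simp [Subsingleton.elim L default]
      rw [e, map_smul, h1, smul_zero, LinearMap.zero_apply]
  by_cases hA : 2 * (n + 1) - 1 ≤ (univ.filter fun z => (row z : ℕ) < 4).card
  · obtain _ | l := n
    · refine absurd ?_ hB
      obtain ⟨z, hz⟩ := Finset.card_pos.1 (show 0 < _ from hA)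
      obtain ⟨y, hy, -⟩ := hT.2 z ⟨0, (Nat.zero_le _).trans_lt (row z).2⟩ 0 (Nat.zero_le _) (Nat.zero_le _)
      exact Finset.card_pos.2 ⟨y, by simp [hy]⟩
    obtain ⟨c0, w, hw, hwf⟩ := exists_rim_fixed ρ (split₂ l) row hw₀0 hfix
      (k := 4) (by rw [Fintype.card_fin]; omega)
    refine good_step ρ (split₂ l) (eR l) (eC l) (eR (l + 2)) (eC (l + 2))
      (fun W' _ _ ρ' hW' => IH l (by omega) W' ρ' hW') glue₂ glue₂_comp
      (uR (l + 1)) (uC (l + 1)) (eR_glue₂ l) (eC_glue₂ l)
      (fun L L' p q g => mem_range_of_glue₂) c0 hw hwf ?_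
    intro h' hh₂ h0
    obtain ⟨row', col', θ', hT', hθ', hdet'⟩ := exists_poly_detect _ h' hh₂ h0
    obtain ⟨π, A, hπ⟩ := exists_path_detect (l + 1) row' col' hT'
    refine ⟨fun p q => θ' (pathFam A p q), fun g p q => ?_, fun h1 => ?_⟩
    · rw [← hθ']
      refine congrArg θ' (funext fun L => ?_)
      simp only [act_apply, pathFam]
      exact Fintype.prod_equiv g _ _ fun z => by simp
    · refine hdet' _ hπ ?_
      rw [hθ', hh₂]
      simp only [pathVec, map_sum, map_smul] at h1 ⊢
      rw [← map_zero ((ρ.comp ((splitHom (split₂ l)).comp (MonoidHom.inr _ _))) π), ← h1]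
      simp only [map_sum, map_smul]
  have hω : ∀ g : Equiv.Perm (Cell (n + 1)), col ∘ g = col →
      ρ g (h (θ (poly row col))) = ((Equiv.Perm.sign g : ℤˣ) : ℤ) • h (θ (poly row col)) :=
    fun g hg => by
      rw [← hh, ← hθ, act_poly_sign row hg, map_zsmul, map_zsmul]
  have h1 : 2 * Fintype.card (Cell (n + 1)) = (n + 1) * (n + 1 + 1) := by
    rw [card_cell_eq]
    obtain ⟨t, ht⟩ := Nat.even_mul_succ_self (n + 1)
    omega
  have h2 : (univ.filter fun z => (row z : ℕ) = 0).card < n + 1 := by
    have e : (univ.filter fun z => (row z : ℕ) = 0) = univ.filter fun z => (row z : ℕ) < 1 :=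
      Finset.filter_congr fun z _ => Nat.lt_one_iff.symm
    rw [e]
    omega
  obtain ⟨w, hw, hwf⟩ := exists_sign_fixed ρ col (hdet _ (pair_poly_self_ne_zero hT)) hω
    (card_col_lt hT h1 h2 (by omega))
  exact good_of_sign_fixed ρ hw hwf

end Vale.Agent.P197.Saxl
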