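import Vale.Agent.P197.Saxl.Tensor

/-!
# P197: the staircase module as a type of its own

The same module and action as `staircaseRep`, with named instances, so that statements stay short.
-/

namespace Vale.Agent.P197.Saxl

/-- The Specht module of the staircase, as a type. -/
def SpechtMod (m : ℕ) : Type := ↥(staircaseSpecht m)

noncomputable instance instSpechtModAddCommGroup (m : ℕ) : AddCommGroup (SpechtMod m) :=
  Submodule.addCommGroup (staircaseSpecht m)

noncomputable instance instSpechtModModule (m : ℕ) : Module ℂ (SpechtMod m) :=
  Submodule.module (staircaseSpecht m)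

/-- A permutation of the cells on the Specht module: `(g x) L = x (L ∘ g)`. -/
noncomputable def spechtLin (m : ℕ) (g : Equiv.Perm (Cell m)) : SpechtMod m →ₗ[ℂ] SpechtMod m where
  toFun x := ⟨act g x.1, act_mem_staircaseSpecht g x.2⟩
  map_add' _ _ := rfl
  map_smul' _ _ := rfl

/-- The symmetric group acting on the Specht module of the staircase. -/
noncomputable def spechtRep (m : ℕ) : Representation ℂ (Equiv.Perm (Cell m)) (SpechtMod m) where
  toFun := spechtLin m
  map_one' := LinearMap.ext fun _ => rfl
  map_mul' _ _ := LinearMap.ext fun _ => rfl

theorem spechtRep_eq (m : ℕ) : spechtRep m = staircaseRep m := rfl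

end Vale.Agent.P197.Saxl
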