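import Vale.Agent.P197.Saxl.SpechtTableau
import Mathlib.Analysis.Complex.Basic
import Mathlib.GroupTheory.Perm.Sign
import Mathlib.LinearAlgebra.Span.Basic

/-!
# P197: highest weight functions are spanned by polytabloids
-/

namespace Vale.Agent.P197.Saxl

open Finset ComplexConjugate

variable {α : Type} [Fintype α] [DecidableEq α] {r : ℕ}

/-- Replace every single label `i` by `j` and sum. -/
def raise (i j : Fin r) (y : Fn α (Fin r)) : Fn α (Fin r) := fun M =>
  ∑ z, if M z = i then y (Function.update M z j) else 0

/-- The raising map as a linear map. -/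
def raiseMap (i j : Fin r) : Fn α (Fin r) →ₗ[ℂ] Fn α (Fin r) where
  toFun := raise i j
  map_add' x y := funext fun M => by
    simp only [raise, Pi.add_apply, ← Finset.sum_add_distrib]
    exact Finset.sum_congr rfl fun z _ => by split_ifs <;> simp
  map_smul' c x := funext fun M => by
    simp only [raise, Pi.smul_apply, smul_eq_mul, RingHom.id_apply, Finset.mul_sum]
    exact Finset.sum_congr rfl fun z _ => by split_ifs <;> simp

/-- A function killed by all raising maps. -/
def IsHW (y : Fn α (Fin r)) : Prop := ∀ i j : Fin r, i < j → raise i j y = 0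

theorem IsHW.add {x y : Fn α (Fin r)} (hx : IsHW x) (hy : IsHW y) : IsHW (x + y) :=
  fun i j h => by
    show raiseMap i j (x + y) = 0
    rw [map_add]
    show raise i j x + raise i j y = 0
    rw [hx i j h, hy i j h, add_zero]

theorem IsHW.smul {x : Fn α (Fin r)} (hx : IsHW x) (c : ℂ) : IsHW (c • x) :=
  fun i j h => by
    show raiseMap i j (c • x) = 0
    rw [map_smul]
    show c • raise i j x = 0
    rw [hx i j h, smul_zero]

omit [DecidableEq α] in
theorem supported_comp {ν : Fin r → ℕ} {y : Fn α (Fin r)} {L : α → Fin r} (h : y L ≠ 0)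
    (hy : ∀ L, content L ≠ ν → y L = 0) : content L = ν := by
  by_contra hc
  exact h (hy L hc)

theorem content_update (L : α → Fin r) {z : α} {a : Fin r} {x : Fin r} :
    content (Function.update L z a) x + (if L z = x then 1 else 0) =
      content L x + (if a = x then 1 else 0) := by
  classical
  simp only [content, Finset.card_filter]
  rw [← Finset.add_sum_erase _ _ (Finset.mem_univ z), ← Finset.add_sum_erase _ _ (Finset.mem_univ z)]
  have e : ∀ w ∈ Finset.univ.erase z, (if Function.update L z a w = x then 1 else 0) =
      (if L w = x then 1 else 0 : ℕ) := fun w hw => by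
    rw [Function.update_of_ne (Finset.ne_of_mem_erase hw)]
  rw [Finset.sum_congr rfl e, Function.update_self]
  omega

/-- The commutator of a raising and a lowering map. -/
theorem raise_raise {i j : Fin r} (hij : i ≠ j) (y : Fn α (Fin r)) (M : α → Fin r) :
    raise i j (raise j i y) M + (content M j : ℂ) * y M =
      raise j i (raise i j y) M + (content M i : ℂ) * y M := by
  classical
  have key : ∀ a b : Fin r, a ≠ b → raise a b (raise b a y) M = (content M a : ℂ) * y M +
      ∑ z, ∑ w, if M z = a ∧ M w = b then
        y (Function.update (Function.update M z b) w a) else 0 := by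
    intro a b hab
    have hsum : (content M a : ℂ) * y M = ∑ z, if M z = a then y M else 0 := by
      rw [Finset.sum_ite, Finset.sum_const_zero, add_zero, Finset.sum_const, nsmul_eq_mul]
      rfl
    rw [hsum, ← Finset.sum_add_distrib]
    simp only [raise]
    refine Finset.sum_congr rfl fun z _ => ?_
    by_cases hz : M z = a
    · simp only [hz, if_true, true_and]
      rw [← Finset.add_sum_erase _ _ (Finset.mem_univ z),
        ← Finset.add_sum_erase _ _ (Finset.mem_univ z), Function.update_self, if_pos rfl,
        Function.update_idem, ← hz, Function.update_eq_self, hz, if_neg hab, zero_add]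
      refine congrArg (y M + ·) (Finset.sum_congr rfl fun w hw => ?_)
      rw [Function.update_of_ne (Finset.ne_of_mem_erase hw)]
    · simp [hz]
  rw [key i j hij, key j i hij.symm, Finset.sum_comm (f := fun z w => if M z = j ∧ M w = i then _ else _)]
  have hsum : (∑ z, ∑ w, if M z = i ∧ M w = j then
      y (Function.update (Function.update M z j) w i) else 0) =
      ∑ w, ∑ z, if M z = j ∧ M w = i then
      y (Function.update (Function.update M z i) w j) else 0 := by
    refine Finset.sum_congr rfl fun z _ => Finset.sum_congr rfl fun w _ => ?_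
    by_cases h : M z = i ∧ M w = j
    · have hne : z ≠ w := fun e => hij (by rw [← h.1, e, h.2])
      rw [if_pos h, if_pos ⟨h.2, h.1⟩, Function.update_comm hne]
    · rw [if_neg h, if_neg fun h' => h ⟨h'.2, h'.1⟩]
  rw [hsum]
  ring

/-- Lowering is adjoint to raising. -/
theorem pair_raise (i j : Fin r) (x y : Fn α (Fin r)) :
    pair (raise j i x) y = pair x (raise i j y) := by
  classical
  simp only [pair, raise, Finset.sum_mul, Finset.mul_sum]
  rw [Finset.sum_comm, Finset.sum_comm (f := fun L z => x L * _)]
  refine Finset.sum_congr rfl fun z _ => ?_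
  simp only [ite_mul, zero_mul, mul_ite, mul_zero]
  rw [← Finset.sum_filter, ← Finset.sum_filter]
  refine Finset.sum_nbij' (fun L => Function.update L z i) (fun L => Function.update L z j)
    (by simp) (by simp) (fun L hL => ?_) (fun L hL => ?_) fun L hL => ?_
  · simp only [Finset.mem_filter, Finset.mem_univ, true_and] at hL
    rw [Function.update_idem, ← hL, Function.update_eq_self]
  · simp only [Finset.mem_filter, Finset.mem_univ, true_and] at hL
    rw [Function.update_idem, ← hL, Function.update_eq_self]
  · simp only [Finset.mem_filter, Finset.mem_univ, true_and] at hL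
    rw [Function.update_idem, ← hL, Function.update_eq_self]

omit [DecidableEq α] in
theorem conj_raise [DecidableEq α] (i j : Fin r) (y : Fn α (Fin r)) (M : α → Fin r) :
    raise i j (fun L => conj (y L)) M = conj (raise i j y M) := by
  simp only [raise, map_sum]
  exact Finset.sum_congr rfl fun z _ => by split_ifs <;> simp

/-- The weight of a highest weight function is antitone. -/
theorem IsHW.antitone {y : Fn α (Fin r)} {ν : Fin r → ℕ} (hy : IsHW y)
    (hs : ∀ L, content L ≠ ν → y L = 0) (hne : y ≠ 0) : Antitone ν := by
  classical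
  intro i j hle
  rcases eq_or_lt_of_le hle with rfl | hij
  · exact le_rfl
  by_contra hlt
  push Not at hlt
  obtain ⟨L0, hL0⟩ := Function.ne_iff.1 hne
  set x : Fn α (Fin r) := raise j i y with hx
  have hpos : ∀ z : Fn α (Fin r), (∑ L, conj (z L) * z L).re = ∑ L, Complex.normSq (z L) := by
    intro z
    rw [Complex.re_sum]
    exact Finset.sum_congr rfl fun L _ => by rw [← Complex.normSq_eq_conj_mul_self, Complex.ofReal_re]
  have h1 : ∑ L, conj (x L) * x L = ((ν i : ℂ) - ν j) * ∑ L, conj (y L) * y L := by
    have hc : (fun L => conj (x L)) = raise j i (fun L => conj (y L)) :=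
      funext fun L => (conj_raise j i y L).symm
    have h2 : ∀ M, raise i j x M = ((ν i : ℂ) - ν j) * y M := fun M => by
      have := raise_raise hij.ne y M
      rw [hy i j hij] at this
      simp only [← hx] at this
      by_cases hM : content M = ν
      · rw [hM] at this
        have e0 : raise j i (0 : Fn α (Fin r)) M = 0 := by simp [raise]
        rw [e0, zero_add] at this
        linear_combination this
      · rw [hs M hM] at this ⊢
        have e0 : raise j i (0 : Fn α (Fin r)) M = 0 := by simp [raise]
        rw [e0] at this
        simpa using this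
    calc ∑ L, conj (x L) * x L = pair (raise j i fun L => conj (y L)) x := by rw [← hc]; rfl
      _ = pair (fun L => conj (y L)) (raise i j x) := pair_raise i j _ _
      _ = _ := by
        rw [pair, Finset.mul_sum]
        exact Finset.sum_congr rfl fun L _ => by rw [h2]; ring
  have h3 := congrArg Complex.re h1
  rw [hpos, show ((ν i : ℂ) - ν j) = (((ν i : ℝ) - ν j : ℝ) : ℂ) by push_cast; ring,
    Complex.re_ofReal_mul, hpos] at h3
  have h4 : (ν i : ℝ) - ν j < 0 := sub_neg.2 (by exact_mod_cast hlt)
  have h5 : 0 < ∑ L, Complex.normSq (y L) :=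
    Finset.sum_pos' (fun L _ => Complex.normSq_nonneg _)
      ⟨L0, Finset.mem_univ _, Complex.normSq_pos.2 hL0⟩
  have h6 : 0 ≤ ∑ L, Complex.normSq (x L) := Finset.sum_nonneg fun L _ => Complex.normSq_nonneg _
  nlinarith [mul_neg_of_neg_of_pos h4 h5]

/-- Polytabloids have highest weight. -/
theorem poly_isHW {row : α → Fin r} {col : α → ℕ} (h : IsTab row col) :
    IsHW (poly row col) := by
  classical
  intro i j hij
  funext M
  simp only [raise, poly_apply, Pi.zero_apply]
  rw [← Finset.sum_filter, Finset.sum_sigma' (s := {z | M z = i}) (t := fun _ => Finset.univ),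
    ← Finset.sum_filter]
  -- the partner of a term
  let w : (_ : α) × Equiv.Perm α → α := fun p =>
    if hh : ∃ v, row v = i ∧ col v = col (p.2 p.1) then p.2.symm hh.choose else p.1
  have hw : ∀ p : (_ : α) × Equiv.Perm α, M p.1 = i → col ∘ ⇑p.2 = col →
      row ∘ ⇑p.2 = Function.update M p.1 j →
      w p ≠ p.1 ∧ M (w p) = i ∧ col (w p) = col p.1 ∧ row (p.2 (w p)) = i ∧
        row (p.2 p.1) = j := by
    rintro ⟨z, c⟩ hz hc hr
    have hzr : row (c z) = j := by simpa using congrFun hr z
    have hex : ∃ v, row v = i ∧ col v = col (c z) :=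
      h.2 (c z) i (col (c z)) (hzr ▸ hij.le) le_rfl
    simp only [w, dif_pos hex]
    obtain ⟨hu, hu'⟩ := hex.choose_spec
    generalize hex.choose = u at hu hu' ⊢
    have hne : c.symm u ≠ z := fun e => by
      rw [← e, Equiv.apply_symm_apply, hu] at hzr
      exact hij.ne hzr
    refine ⟨hne, ?_, ?_, by simpa using hu, hzr⟩
    · have := congrFun hr (c.symm u)
      simp only [Function.comp_apply, Equiv.apply_symm_apply, hu,
        Function.update_of_ne hne] at this
      exact this.symm
    · rw [← congrFun hc (c.symm u), ← congrFun hc z]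
      simpa using hu'
  have hnew : ∀ p : (_ : α) × Equiv.Perm α, M p.1 = i → col ∘ ⇑p.2 = col →
      row ∘ ⇑p.2 = Function.update M p.1 j →
      M (w p) = i ∧ col ∘ ⇑(p.2 * Equiv.swap p.1 (w p)) = col ∧
        row ∘ ⇑(p.2 * Equiv.swap p.1 (w p)) = Function.update M (w p) j := by
    intro p hz hc hr
    obtain ⟨a1, a2, a3, a4, a5⟩ := hw p hz hc hr
    refine ⟨a2, ?_, ?_⟩
    · rw [Equiv.Perm.coe_mul, ← Function.comp_assoc, hc, comp_swap_eq a3.symm]
    · funext v
      simp only [Equiv.Perm.coe_mul, Function.comp_apply]
      by_cases hv1 : v = p.1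
      · rw [hv1, Equiv.swap_apply_left, Function.update_of_ne a1.symm, hz, a4]
      · by_cases hv2 : v = w p
        · rw [hv2, Equiv.swap_apply_right, Function.update_self, a5]
        · rw [Equiv.swap_apply_of_ne_of_ne hv1 hv2, Function.update_of_ne hv2]
          simpa [Function.update_of_ne hv1] using congrFun hr v
  refine Finset.sum_involution (fun p _ => ⟨w p, p.2 * Equiv.swap p.1 (w p)⟩)
    (fun p hp => ?_) (fun p hp _ => ?_) (fun p hp => ?_) fun p hp => ?_
  all_goals simp only [Finset.mem_filter, Finset.mem_sigma, Finset.mem_univ, true_and,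
    and_true] at hp
  all_goals obtain ⟨hz, hc, hr⟩ := hp
  all_goals obtain ⟨a1, a2, a3, a4, a5⟩ := hw p hz hc hr
  · rw [sgn_mul, sgn_swap a1.symm]; ring
  · intro e
    exact a1 (congrArg Sigma.fst e)
  · simp only [Finset.mem_filter, Finset.mem_sigma, Finset.mem_univ, true_and, and_true]
    exact hnew p hz hc hr
  · -- involutive
    have hsame : (p.2 * Equiv.swap p.1 (w p)) (w p) = p.2 p.1 := by simp
    have b : w ⟨w p, p.2 * Equiv.swap p.1 (w p)⟩ = p.1 := by
      have hex : ∃ v, row v = i ∧ col v = col (p.2 p.1) :=
        h.2 (p.2 p.1) i _ (a5 ▸ hij.le) le_rfl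
      have e1 : w p = p.2.symm hex.choose := by simp only [w, dif_pos hex]
      have key : ∀ (c : Equiv.Perm α) (z : α), c z = p.2 p.1 →
          w ⟨z, c⟩ = c.symm hex.choose := fun c z hs => by simp only [w, hs, dif_pos hex]
      rw [key _ _ hsame, Equiv.symm_apply_eq, e1]
      simp
    refine Sigma.ext b (heq_of_eq ?_)
    simp only [b]
    rw [Equiv.swap_comm (w p) p.1, mul_assoc, Equiv.swap_mul_self, mul_one]

/-- Extend a labelling of the complement of `z`. -/
def ext (z : α) (a : Fin r) (L : {w // w ≠ z} → Fin r) : α → Fin r :=
  fun w => if h : w = z then a else L ⟨w, h⟩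

omit [Fintype α] in
theorem ext_self (z : α) (a : Fin r) (L : {w // w ≠ z} → Fin r) : ext z a L z = a := dif_pos rfl

omit [Fintype α] in
theorem ext_coe (z : α) (a : Fin r) (L : {w // w ≠ z} → Fin r) (w : {w // w ≠ z}) :
    ext z a L w = L w := dif_neg w.2

omit [Fintype α] in
theorem ext_restrict (z : α) (L : α → Fin r) : ext z (L z) (fun w => L w) = L := by
  funext w
  by_cases h : w = z
  · subst h; exact ext_self _ _ _
  · exact ext_coe z _ _ ⟨w, h⟩

omit [Fintype α] in
theorem update_ext (z : α) (a b : Fin r) (L : {w // w ≠ z} → Fin r) :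
    Function.update (ext z a L) z b = ext z b L := by
  funext w
  by_cases h : w = z
  · subst h; rw [Function.update_self, ext_self]
  · rw [Function.update_of_ne h]; simp [ext, h]

omit [Fintype α] in
theorem update_ext_coe (z : α) (a b : Fin r) (L : {w // w ≠ z} → Fin r) (w : {w // w ≠ z}) :
    Function.update (ext z a L) w b = ext z a (Function.update L w b) := by
  funext v
  by_cases h : v = z
  · subst h; rw [Function.update_of_ne w.2.symm, ext_self, ext_self]
  · rcases eq_or_ne (⟨v, h⟩ : {w // w ≠ z}) w with e | e
    · subst e
      rw [Function.update_self]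
      simp [ext, h]
    · rw [Function.update_of_ne fun e' => e (Subtype.ext e')]
      simp [ext, h, Function.update_of_ne e]

theorem sum_split {β : Type} [AddCommMonoid β] (z : α) (f : α → β) :
    ∑ w, f w = f z + ∑ w : {w // w ≠ z}, f w := by
  rw [← Finset.add_sum_erase _ _ (Finset.mem_univ z)]
  congr 1
  exact Finset.sum_subtype _ (fun w => by simp) f

theorem content_ext (z : α) (a : Fin r) (L : {w // w ≠ z} → Fin r) (x : Fin r) :
    content (ext z a L) x = content L x + (if a = x then 1 else 0) := by
  classical
  simp only [content, Finset.card_filter]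
  rw [sum_split z, ext_self, add_comm]
  simp only [ext_coe]

/-- The component of the largest letter. -/
theorem raise_slice (z : α) (y : Fn α (Fin r)) {a i j : Fin r} (hij : i < j)
    (hmax : ∀ b, a < b → ∀ L, y (ext z b L) = 0) (M : {w // w ≠ z} → Fin r) :
    raise i j y (ext z a M) = raise i j (fun L => y (ext z a L)) M := by
  classical
  simp only [raise]
  rw [sum_split z, ext_self, update_ext]
  simp only [ext_coe, update_ext_coe]
  rcases eq_or_ne a i with rfl | h
  · rw [if_pos rfl, hmax j hij, zero_add]
  · rw [if_neg h, zero_add]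

/-- Extend a tableau by a corner. -/
theorem ext_isTab {z : α} {row : {w // w ≠ z} → Fin r} {col : {w // w ≠ z} → ℕ}
    (h : IsTab row col) {a : Fin r} (hν : Antitone (content (ext z a row))) :
    IsTab (ext z a row) (fun w => if hw : w = z then content row a else col ⟨w, hw⟩) := by
  classical
  refine ⟨fun v w hvw => ?_, fun v a' b ha hb => ?_⟩
  · simp only [Prod.mk.injEq] at hvw
    by_cases hv : v = z <;> by_cases hw : w = z
    · rw [hv, hw]
    · exfalso
      have := h.col_lt ⟨w, hw⟩
      simp [ext, hv, hw] at hvw
      rw [← hvw.1, ← hvw.2] at this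
      exact lt_irrefl _ this
    · exfalso
      have := h.col_lt ⟨v, hv⟩
      simp [ext, hv, hw] at hvw
      rw [hvw.1, hvw.2] at this
      exact lt_irrefl _ this
    · simp [ext, hv, hw] at hvw
      exact congrArg Subtype.val (h.1 (Prod.ext hvw.1 hvw.2))
  · have hb' : b < content (ext z a row) a' := by
      refine lt_of_lt_of_le (Nat.lt_succ_of_le hb) ?_
      refine le_trans ?_ (hν ha)
      by_cases hv : v = z
      · subst hv
        rw [content_ext, ext_self, if_pos rfl]
        simp
      · have := h.col_lt ⟨v, hv⟩
        simp only [dif_neg hv]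
        rw [content_ext]
        simp only [ext, dif_neg hv]
        omega
    rw [content_ext] at hb'
    rcases lt_or_ge b (content row a') with hlt | hge
    · obtain ⟨y, hy, hy'⟩ := h.exists_cell hlt
      exact ⟨y, by rw [ext_coe]; exact hy, by simp [y.2, hy']⟩
    · refine ⟨z, ?_⟩
      by_cases e : a = a'
      · subst e
        refine ⟨ext_self _ _ _, ?_⟩
        show (if hw : z = z then content row a else col ⟨z, hw⟩) = b
        rw [dif_pos rfl]
        rw [if_pos rfl] at hb'
        omega
      · rw [if_neg e] at hb'
        omega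

/-- The components of the polytabloid of an extended tableau. -/
theorem poly_ext {z : α} {row : {w // w ≠ z} → Fin r} {col : {w // w ≠ z} → ℕ}
    (h : IsTab row col) {a : Fin r} (hν : Antitone (content (ext z a row))) :
    (∀ b, a < b → ∀ L, poly (ext z a row)
      (fun w => if hw : w = z then content row a else col ⟨w, hw⟩) (ext z b L) = 0) ∧
    ∀ L, poly (ext z a row) (fun w => if hw : w = z then content row a else col ⟨w, hw⟩)
      (ext z a L) = poly row col L := by
  classical
  set col' : α → ℕ := fun w => if hw : w = z then content row a else col ⟨w, hw⟩ with hcol'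
  have hT : IsTab (ext z a row) col' := ext_isTab h hν
  have hcolz : col' z = content row a := by simp [hcol']
  have hcolc : ∀ w : {w // w ≠ z}, col' w = col w := fun w => by simp [hcol', w.2]
  refine ⟨fun b hb L => ?_, fun L => ?_⟩
  · by_contra hne
    obtain ⟨c, hc, hr⟩ := poly_ne_zero_support hne
    have h1 : ext z a row (c z) = b := by
      have := congrFun hr z
      rwa [Function.comp_apply, ext_self] at this
    have h2 : col' (c z) = content row a := (congrFun hc z).trans hcolz
    have h3 : c z ≠ z := fun e => hb.ne (by rw [e, ext_self] at h1; exact h1)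
    have h4 := h.col_lt ⟨c z, h3⟩
    have h5 : row ⟨c z, h3⟩ = b := by rw [← h1]; exact (ext_coe z a row ⟨c z, h3⟩).symm
    rw [h5, ← hcolc ⟨c z, h3⟩, h2] at h4
    exact absurd (h.content_antitone hb.le) (not_le.2 h4)
  · rw [poly_apply, poly_apply]
    symm
    refine Finset.sum_bij_ne_zero (fun g _ _ => g.ofSubtype) (fun _ _ _ => Finset.mem_univ _)
      (fun g _ _ g' _ _ e => Equiv.Perm.ofSubtype_injective e) (fun c _ hc => ?_) fun g _ _ => ?_
    · have hc' : col' ∘ ⇑c = col' ∧ ext z a row ∘ ⇑c = ext z a L := by
        by_contra hn; exact hc (if_neg hn)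
      have hz : c z = z := hT.1 (Prod.ext
        (by
          have := congrFun hc'.2 z
          simp only [Function.comp_apply, ext_self] at this
          simp only [this, ext_self])
        (congrFun hc'.1 z))
      have hp : ∀ w, c w ≠ z ↔ w ≠ z := fun w => by
        conv_lhs => rw [← hz]
        exact c.injective.ne_iff
      have e : Equiv.Perm.ofSubtype (c.subtypePerm hp) = c :=
        Equiv.Perm.ofSubtype_subtypePerm (p := fun w => w ≠ z) hp fun w hw e => hw (by
          rw [e]; exact hz)
      refine ⟨c.subtypePerm hp, Finset.mem_univ _, ?_, e⟩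
      rw [if_pos]
      · simp [sgn]
      · refine ⟨funext fun w => ?_, funext fun w => ?_⟩
        · have := congrFun hc'.1 w
          simp only [Function.comp_apply, hcolc] at this
          rw [← this]
          exact (hcolc _).symm
        · have := congrFun hc'.2 w
          simp only [Function.comp_apply, ext_coe] at this
          rw [← this, Function.comp_apply]
          exact (ext_coe z a row _).symm
    · have hs : ∀ w : {w // w ≠ z}, g.ofSubtype (w : α) = g w := fun w =>
        Equiv.Perm.ofSubtype_apply_coe g w
      have hz : g.ofSubtype z = z := Equiv.Perm.ofSubtype_apply_of_not_mem g (by simp)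
      have e1 : col' ∘ ⇑g.ofSubtype = col' ↔ col ∘ ⇑g = col := by
        refine ⟨fun e => funext fun w => ?_, fun e => funext fun w => ?_⟩
        · have := congrFun e w
          simpa [hs, hcolc] using this
        · by_cases hw : w = z
          · subst hw; simp [hz]
          · have := congrFun e ⟨w, hw⟩
            simp only [Function.comp_apply] at this ⊢
            rw [hs ⟨w, hw⟩, hcolc, hcolc ⟨w, hw⟩, this]
      have e2 : ext z a row ∘ ⇑g.ofSubtype = ext z a L ↔ row ∘ ⇑g = L := by
        refine ⟨fun e => funext fun w => ?_, fun e => funext fun w => ?_⟩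
        · have := congrFun e w
          simpa [hs, ext_coe] using this
        · by_cases hw : w = z
          · subst hw; simp [hz, ext_self]
          · have := congrFun e ⟨w, hw⟩
            simp only [Function.comp_apply] at this ⊢
            rw [hs ⟨w, hw⟩, ext_coe, ext_coe z a L ⟨w, hw⟩, this]
      simp only [e1, e2]
      simp [sgn]

/-- The polytabloids of a content. -/
def Polys (α : Type) [Fintype α] [DecidableEq α] (ν : Fin r → ℕ) : Set (Fn α (Fin r)) :=
  {e | ∃ row col, IsTab row col ∧ content row = ν ∧ e = poly row col}

theorem mem_span_of_card {r : ℕ} (n : ℕ) : ∀ (α : Type) [Fintype α] [DecidableEq α],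
    Fintype.card α = n → ∀ (ν : Fin r → ℕ) (y : Fn α (Fin r)), IsHW y →
      (∀ L, content L ≠ ν → y L = 0) → y ∈ Submodule.span ℂ (Polys α ν) := by
  induction n with
  | zero =>
    intro α _ _ hc ν y _ hs
    have : IsEmpty α := Fintype.card_eq_zero_iff.1 hc
    by_cases h0 : y = 0
    · rw [h0]; exact zero_mem _
    obtain ⟨L, hL⟩ := Function.ne_iff.1 h0
    have hcol : poly L (fun _ : α => (0 : ℕ)) = fun _ => 1 := by
      funext M
      rw [Subsingleton.elim M L]
      exact poly_self (fun v => isEmptyElim v)
    have hy : y = y L • poly L (fun _ : α => (0 : ℕ)) := by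
      funext M
      rw [hcol, Subsingleton.elim M L]
      simp
    rw [hy]
    exact Submodule.smul_mem _ _ (Submodule.subset_span ⟨L, _,
      ⟨fun v => isEmptyElim v, fun v => isEmptyElim v⟩, supported_comp hL hs, rfl⟩)
  | succ n ih =>
    intro α _ _ hc ν y hy hs
    obtain ⟨z⟩ : Nonempty α := Fintype.card_pos_iff.1 (by omega)
    suffices H : ∀ k, ∀ y : Fn α (Fin r), IsHW y → (∀ L, content L ≠ ν → y L = 0) →
        (∀ b : Fin r, k ≤ (b : ℕ) → ∀ L, y (ext z b L) = 0) →
        y ∈ Submodule.span ℂ (Polys α ν) from
      H r y hy hs fun b hb => absurd b.isLt (not_lt.2 hb)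
    intro k
    induction k with
    | zero =>
      intro y _ _ hz
      have : y = 0 := funext fun L => by
        rw [← ext_restrict z L]
        exact hz _ (Nat.zero_le _) _
      rw [this]; exact zero_mem _
    | succ k ihk =>
      intro y hy hs hz
      by_cases hk : k < r
      swap
      · exact ihk y hy hs fun b hb => absurd b.isLt (by omega)
      set a : Fin r := ⟨k, hk⟩ with ha
      by_cases h0 : ∀ L, y (ext z a L) = 0
      · exact ihk y hy hs fun b hb L => by
          rcases eq_or_lt_of_le hb with e | e
          · rw [show b = a from Fin.ext e.symm]; exact h0 L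
          · exact hz b e L
      push Not at h0
      obtain ⟨L0, hL0⟩ := h0
      have hmax : ∀ b, a < b → ∀ L, y (ext z b L) = 0 := fun b hb => hz b (by
        have := Fin.lt_def.1 hb
        simp only [ha] at this
        omega)
      have hν0 : content (ext z a L0) = ν := supported_comp hL0 hs
      have hν : Antitone ν := hy.antitone hs fun e => hL0 (by rw [e]; rfl)
      set y' : Fn {w // w ≠ z} (Fin r) := fun L => y (ext z a L) with hy'
      have hy'1 : IsHW y' := fun i j hij => funext fun M => by
        rw [hy', ← raise_slice z y hij hmax, hy i j hij]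
        rfl
      have hy'2 : ∀ L, content L ≠ content L0 → y' L = 0 := fun L hL => by
        refine hs _ fun e => hL (funext fun x => ?_)
        have e1 := congrFun (e.trans hν0.symm) x
        rw [content_ext, content_ext] at e1
        omega
      have hmem := ih {w // w ≠ z} (by rw [Fintype.card_subtype_compl]; simp; omega) _ y' hy'1 hy'2
      -- lift the combination
      suffices H : ∀ v ∈ Submodule.span ℂ (Polys {w // w ≠ z} (content L0)),
          ∃ x ∈ Submodule.span ℂ (Polys α ν), IsHW x ∧ (∀ L, content L ≠ ν → x L = 0) ∧
            (∀ b, a < b → ∀ L, x (ext z b L) = 0) ∧ ∀ L, x (ext z a L) = v L by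
        obtain ⟨x, hx, hx1, hx2, hx3, hx4⟩ := H y' hmem
        have hraise : IsHW (y - x) := by
          have e : y - x = y + (-1 : ℂ) • x := by simp [sub_eq_add_neg]
          rw [e]
          exact hy.add (hx1.smul _)
        have := ihk (y - x) hraise (fun L hL => by simp [hs L hL, hx2 L hL]) fun b hb L => by
          rcases eq_or_lt_of_le hb with e | e
          · rw [show b = a from Fin.ext e.symm]; simp [hx4, hy']
          · have hab : a < b := Fin.lt_def.2 (by simp only [ha]; omega)
            simp [hmax b hab, hx3 b hab]
        simpa using add_mem this hx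
      intro v hv
      induction hv using Submodule.span_induction with
      | mem v hv =>
        obtain ⟨row, col, hT, hcnt, rfl⟩ := hv
        have hν' : content (ext z a row) = ν := by
          rw [← hν0]; funext x; rw [content_ext, content_ext, hcnt]
        have hT' : Antitone (content (ext z a row)) := hν' ▸ hν
        obtain ⟨p1, p2⟩ := poly_ext hT hT'
        exact ⟨_, Submodule.subset_span ⟨_, _, ext_isTab hT hT', hν', rfl⟩,
          poly_isHW (ext_isTab hT hT'), fun L hL => poly_content_zero (hν' ▸ hL), p1, p2⟩
      | zero =>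
        exact ⟨0, zero_mem _, fun i j _ => funext fun M => by simp [raise], by simp, by simp,
          by simp⟩
      | add v v' _ _ hv hv' =>
        obtain ⟨x, hx, x1, x2, x3, x4⟩ := hv
        obtain ⟨x', hx', x1', x2', x3', x4'⟩ := hv'
        exact ⟨x + x', add_mem hx hx', x1.add x1', fun L hL => by
          simp [x2 L hL, x2' L hL], fun b hb L => by simp [x3 b hb L, x3' b hb L],
          fun L => by simp [x4 L, x4' L]⟩
      | smul c v _ hv =>
        obtain ⟨x, hx, x1, x2, x3, x4⟩ := hv
        exact ⟨c • x, Submodule.smul_mem _ c hx, x1.smul c,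
          fun L hL => by simp [x2 L hL], fun b hb L => by simp [x3 b hb L],
          fun L => by simp [x4 L]⟩

/-- A nonzero highest weight function pairs with a polytabloid. -/
theorem IsHW.exists_pair {y : Fn α (Fin r)} {ν : Fin r → ℕ} (hy : IsHW y)
    (hs : ∀ L, content L ≠ ν → y L = 0) (hne : y ≠ 0) :
    ∃ row col, IsTab row col ∧ content row = ν ∧ pair y (poly row col) ≠ 0 := by
  classical
  by_contra hcon
  push Not at hcon
  have hmem := mem_span_of_card (Fintype.card α) α rfl ν (fun L => conj (y L))
    (fun i j hij => funext fun M => by rw [conj_raise, hy i j hij]; simp)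
    (fun L hL => by simp [hs L hL])
  have hgen : ∀ v ∈ Submodule.span ℂ (Polys α ν), pair y v = 0 := fun v hv => by
    induction hv using Submodule.span_induction with
    | mem v hv =>
      obtain ⟨row, col, hT, hc, rfl⟩ := hv
      exact hcon row col hT hc
    | zero => simp [pair]
    | add a b _ _ ha hb =>
      simp only [pair, Pi.add_apply, mul_add, Finset.sum_add_distrib] at ha hb ⊢
      rw [ha, hb, add_zero]
    | smul c a _ ha =>
      simp only [pair, Pi.smul_apply, smul_eq_mul] at ha ⊢
      rw [← mul_zero c, ← ha, Finset.mul_sum]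
      exact Finset.sum_congr rfl fun L _ => by ring
  have hz := hgen _ hmem
  refine hne (funext fun L => ?_)
  have h1 : ∑ L, Complex.normSq (y L) = 0 := by
    have := congrArg Complex.re hz
    simpa only [pair, Complex.re_sum, Complex.mul_conj, Complex.ofReal_re, Complex.zero_re] using this
  exact Complex.normSq_eq_zero.1
    ((Finset.sum_eq_zero_iff_of_nonneg fun L _ => Complex.normSq_nonneg _).1 h1 L
      (Finset.mem_univ L))

end Vale.Agent.P197.Saxl
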