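import Vale.Agent.P197.Saxl.Defs
import Mathlib.Algebra.Order.BigOperators.Group.Finset
import Mathlib.Data.Finset.Card
import Mathlib.Order.Interval.Finset.Fin

/-!
# P197: contents, column groups and the column antisymmetriser
-/

namespace Vale.Agent.P197.Saxl

open Finset

variable {α : Type} [Fintype α] [DecidableEq α] {r : ℕ}

/-- The content of a labelling. -/
def content (L : α → Fin r) (a : Fin r) : ℕ := #{z | L z = a}

omit [DecidableEq α] in
theorem content_comp (L : α → Fin r) (g : Equiv.Perm α) : content (L ∘ g) = content L :=
  funext fun _ => Finset.card_bijective g g.bijective fun _ => by simp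

/-- The length of a column. -/
def colLen (col : α → ℕ) (b : ℕ) : ℕ := #{z | col z = b}

variable {row : α → Fin r} {col : α → ℕ}

omit [DecidableEq α] in
/-- The column index is smaller than the length of the row. -/
theorem IsTab.col_lt (h : IsTab row col) (x : α) : col x < content row (row x) := by
  classical
  have h1 : Finset.range (col x + 1) ⊆ Finset.image col {w | row w = row x} := by
    intro b hb
    obtain ⟨y, hy, hy'⟩ := h.2 x (row x) b le_rfl (Nat.lt_succ_iff.1 (Finset.mem_range.1 hb))
    exact Finset.mem_image.2 ⟨y, by simp [hy], hy'⟩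
  have := (Finset.card_le_card h1).trans Finset.card_image_le
  rw [Finset.card_range] at this
  exact this

omit [DecidableEq α] in
/-- Every index below the length of a row occurs in it. -/
theorem IsTab.exists_cell (h : IsTab row col) {a : Fin r} {b : ℕ} (hb : b < content row a) :
    ∃ y, row y = a ∧ col y = b := by
  classical
  by_contra hc
  have h1 : ∀ w, row w = a → col w < b := fun w hw => by
    by_contra hlt
    obtain ⟨y, hy, hy'⟩ := h.2 w a b hw.ge (not_lt.1 hlt)
    exact hc ⟨y, hy, hy'⟩
  have h2 : content row a ≤ #(Finset.range b) := by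
    refine Finset.card_le_card_of_injOn col (fun w hw => ?_) fun w hw w' hw' e => h.1 ?_
    · simp only [Finset.coe_filter, Finset.mem_univ, true_and, Set.mem_ofPred_eq] at hw
      simpa using h1 w hw
    · simp only [Finset.coe_filter, Finset.mem_univ, true_and, Set.mem_ofPred_eq] at hw hw'
      simp [hw, hw', e]
  rw [Finset.card_range] at h2
  omega

omit [DecidableEq α] in
/-- The row index is smaller than the length of the column. -/
theorem IsTab.row_lt (h : IsTab row col) (x : α) : (row x : ℕ) < colLen col (col x) := by
  classical
  have h1 : Finset.Iic (row x) ⊆ Finset.image row {w | col w = col x} := by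
    intro a ha
    obtain ⟨y, hy, hy'⟩ := h.2 x a (col x) (Finset.mem_Iic.1 ha) le_rfl
    exact Finset.mem_image.2 ⟨y, by simp [hy'], hy⟩
  have := (Finset.card_le_card h1).trans Finset.card_image_le
  rw [Fin.card_Iic] at this
  exact this

omit [DecidableEq α] in
/-- Every index below the length of a column occurs in it. -/
theorem IsTab.exists_colCell (h : IsTab row col) {a : Fin r} {b : ℕ} (hb : (a : ℕ) < colLen col b) :
    ∃ y, row y = a ∧ col y = b := by
  classical
  by_contra hc
  have h1 : ∀ w, col w = b → row w < a := fun w hw => by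
    by_contra hlt
    obtain ⟨y, hy, hy'⟩ := h.2 w a b (not_lt.1 hlt) hw.ge
    exact hc ⟨y, hy, hy'⟩
  have h2 : colLen col b ≤ #(Finset.Iio a) := by
    refine Finset.card_le_card_of_injOn row (fun w hw => ?_) fun w hw w' hw' e => h.1 ?_
    · simp only [Finset.coe_filter, Finset.mem_univ, true_and, Set.mem_ofPred_eq] at hw
      simpa using h1 w hw
    · simp only [Finset.coe_filter, Finset.mem_univ, true_and, Set.mem_ofPred_eq] at hw hw'
      simp [hw, hw', e]
  rw [Fin.card_Iio] at h2
  omega

omit [DecidableEq α] in
/-- The rows of a tableau get shorter. -/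
theorem IsTab.content_antitone (h : IsTab row col) : Antitone (content row) := by
  intro a b hab
  by_contra hlt
  push Not at hlt
  obtain ⟨y, hy, hy'⟩ := h.exists_cell (a := b) (b := content row a) hlt
  obtain ⟨u, hu, hu'⟩ := h.2 y a (content row a) (hy.symm ▸ hab) hy'.ge
  have := h.col_lt u
  rw [hu, hu'] at this
  exact lt_irrefl _ this

/-- The sign as a complex number. -/
noncomputable def sgn (c : Equiv.Perm α) : ℂ := (((Equiv.Perm.sign c : ℤˣ) : ℤ) : ℂ)

theorem sgn_mul (c d : Equiv.Perm α) : sgn (c * d) = sgn c * sgn d := by
  simp [sgn]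

theorem sgn_swap {z w : α} (h : z ≠ w) : sgn (Equiv.swap z w) = -1 := by
  simp [sgn, Equiv.Perm.sign_swap h]

theorem sgn_mul_self (c : Equiv.Perm α) : sgn c * sgn c = 1 := by
  rw [sgn]
  rcases Int.units_eq_one_or (Equiv.Perm.sign c) with h | h <;> simp [h]

theorem poly_apply {β γ : Type} [DecidableEq β] [DecidableEq γ] (row : α → β) (col : α → γ)
    (L : α → β) :
    poly row col L = ∑ c : Equiv.Perm α, if col ∘ c = col ∧ row ∘ c = L then sgn c else 0 := by
  classical
  simp only [poly, sgn]
  refine Finset.sum_congr rfl fun c _ => ?_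
  split_ifs <;> simp_all

theorem pair_poly (x : Fn α (Fin r)) :
    pair x (poly row col) =
      ∑ c : Equiv.Perm α, if col ∘ c = col then x (row ∘ c) * sgn c else 0 := by
  classical
  simp only [pair, poly_apply, Finset.mul_sum, mul_ite, mul_zero]
  rw [Finset.sum_comm]
  refine Finset.sum_congr rfl fun c _ => ?_
  by_cases h : col ∘ ⇑c = col <;> simp [h]

theorem poly_content_zero {L : α → Fin r} (hL : content L ≠ content row) :
    poly row col L = 0 := by
  by_contra hne
  obtain ⟨c, -, rfl⟩ := poly_ne_zero_support hne
  exact hL (content_comp row c)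

omit [Fintype α] in
theorem comp_swap_eq {γ : Type} {f : α → γ} {z w : α} (e : f z = f w) :
    f ∘ ⇑(Equiv.swap z w) = f := by
  funext u
  simp only [Function.comp_apply, Equiv.swap_apply_def]
  split_ifs with h1 h2
  · rw [h1, e]
  · rw [h2, e]
  · rfl

/-- Labellings without repetition in the columns, with the content of the shape, come from the
column stabiliser. -/
theorem exists_colStab (h : IsTab row col) {L : α → Fin r} (hcnt : content L = content row)
    (hinj : ∀ z w, col z = col w → L z = L w → z = w) :
    ∃ c : Equiv.Perm α, col ∘ c = col ∧ row ∘ c = L := by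
  classical
  have hlen : ∀ z, (L z : ℕ) < colLen col (col z) := by
    intro z
    by_contra hz
    push Not at hz
    have hpos : 0 < colLen col (col z) := Finset.card_pos.2 ⟨z, by simp⟩
    obtain ⟨a, ha⟩ : ∃ a : Fin r, (a : ℕ) + 1 = colLen col (col z) :=
      ⟨⟨colLen col (col z) - 1, by have := (L z).isLt; omega⟩, by simp; omega⟩
    let A : ℕ → Finset α := fun b => {w | col w = b ∧ L w ≤ a}
    let B : ℕ → Finset α := fun b => {w | col w = b ∧ row w ≤ a}
    have hA : ∀ b, #(A b) ≤ #(B b) := by
      intro b
      rcases le_or_gt ((a : ℕ) + 1) (colLen col b) with hb | hb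
      · have e1 : #(A b) ≤ #(Finset.Iic a) := by
          refine Finset.card_le_card_of_injOn L (fun w hw => ?_) fun w hw w' hw' e => ?_
          · simp [A] at hw; simpa using hw.2
          · simp [A] at hw hw'; exact hinj w w' (hw.1.trans hw'.1.symm) e
        have e2 : Finset.Iic a ⊆ (B b).image row := by
          intro i hi
          obtain ⟨y, hy, hy'⟩ := h.exists_colCell (a := i) (b := b) (by
            have : i ≤ a := Finset.mem_Iic.1 hi
            rw [Fin.le_def] at this
            omega)
          exact Finset.mem_image.2 ⟨y, by simpa [B, hy, hy'] using Finset.mem_Iic.1 hi, hy⟩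
        exact e1.trans ((Finset.card_le_card e2).trans Finset.card_image_le)
      · refine Finset.card_le_card fun w hw => ?_
        simp [A] at hw
        have := h.row_lt w
        rw [hw.1] at this
        refine Finset.mem_filter.2 ⟨Finset.mem_univ _, hw.1, ?_⟩
        rw [Fin.le_def]
        omega
    have htot : ∑ b ∈ Finset.univ.image col, #(A b) = ∑ b ∈ Finset.univ.image col, #(B b) := by
      have e : ∀ M : α → Fin r, ∑ b ∈ Finset.univ.image col,
          #({w | col w = b ∧ M w ≤ a} : Finset α) = ∑ i ∈ Finset.Iic a, content M i := by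
        intro M
        have e1 : ∑ i ∈ Finset.Iic a, content M i = #({w | M w ≤ a} : Finset α) := by
          rw [Finset.card_eq_sum_card_fiberwise (f := M) (t := Finset.Iic a) fun w hw => by
            simpa using hw]
          refine Finset.sum_congr rfl fun i hi => congrArg Finset.card ?_
          ext w
          simp only [Finset.mem_filter, Finset.mem_univ, true_and, iff_and_self]
          intro hw
          rw [hw]; exact Finset.mem_Iic.1 hi
        rw [e1, Finset.card_eq_sum_card_fiberwise (f := col) (t := Finset.univ.image col)
          (fun w _ => Finset.mem_image_of_mem _ (Finset.mem_univ w))]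
        refine Finset.sum_congr rfl fun b _ => congrArg Finset.card ?_
        ext w
        simp [and_comm]
      simp only [A, B]
      rw [e L, e row, hcnt]
    have heq := (Finset.sum_eq_sum_iff_of_le fun b _ => hA b).1 htot (col z)
      (Finset.mem_image_of_mem _ (Finset.mem_univ z))
    have hBall : B (col z) = ({w | col w = col z} : Finset α) := by
      ext w
      simp only [B, Finset.mem_filter, Finset.mem_univ, true_and, and_iff_left_iff_imp]
      intro hw
      have := h.row_lt w
      rw [hw] at this
      rw [Fin.le_def]
      omega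
    have hsub : A (col z) ⊆ B (col z) := by
      rw [hBall]; intro w hw; simp [A] at hw; simp [hw.1]
    have : z ∈ A (col z) := by
      rw [Finset.eq_of_subset_of_card_le hsub heq.ge, hBall]; simp
    have hLa := (Finset.mem_filter.1 this).2.2
    rw [Fin.le_def] at hLa
    omega
  choose c hc1 hc2 using fun z => h.exists_colCell (hlen z)
  have hbij : Function.Bijective c := Finite.injective_iff_bijective.1 fun z w e =>
    hinj z w (by rw [← hc2 z, e, hc2 w]) (by rw [← hc1 z, e, hc1 w])
  exact ⟨Equiv.ofBijective c hbij, funext hc2, funext hc1⟩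

/-- The column antisymmetriser maps a content to multiples of the polytabloid. -/
theorem sum_colStab_act (h : IsTab row col) {x : Fn α (Fin r)}
    (hx : ∀ L, content L ≠ content row → x L = 0) :
    ∑ c : Equiv.Perm α, (if col ∘ c = col then sgn c else 0) • act c x =
      pair x (poly row col) • poly row col := by
  classical
  funext L
  simp only [Finset.sum_apply, Pi.smul_apply, smul_eq_mul, act_apply, ite_mul, zero_mul]
  by_cases hinj : ∀ z w, col z = col w → L z = L w → z = w
  · by_cases hcnt : content L = content row
    · obtain ⟨d, hd, rfl⟩ := exists_colStab h hcnt hinj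
      have hpd : poly row col (row ∘ d) = sgn d := by
        rw [poly_apply, Finset.sum_eq_single d (fun c _ hc => if_neg fun hcc => hc
          (Equiv.ext fun z => h.1 (Prod.ext (congrFun hcc.2 z)
            ((congrFun hcc.1 z).trans (congrFun hd z).symm)))) (by simp)]
        simp [hd]
      rw [hpd, pair_poly, Finset.sum_mul]
      refine Fintype.sum_equiv (Equiv.mulLeft d) _ _ fun c => ?_
      have e : col ∘ ⇑(d * c) = col ∘ ⇑c := by
        rw [Equiv.Perm.coe_mul, ← Function.comp_assoc, hd]
      simp only [Equiv.coe_mulLeft, e, ite_mul, zero_mul]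
      refine if_ctx_congr Iff.rfl (fun _ => ?_) (fun _ => rfl)
      rw [Equiv.Perm.coe_mul, sgn_mul, Function.comp_assoc,
        show x (row ∘ ⇑d ∘ ⇑c) * (sgn d * sgn c) * sgn d =
          sgn c * x (row ∘ ⇑d ∘ ⇑c) * (sgn d * sgn d) by ring, sgn_mul_self, mul_one]
    · rw [poly_content_zero hcnt, mul_zero]
      exact Finset.sum_eq_zero fun c _ => by
        rw [hx _ (by rwa [content_comp]), mul_zero, ite_self]
  · have h0 : poly row col L = 0 := by
      by_contra hne
      obtain ⟨d, hd, rfl⟩ := poly_ne_zero_support hne
      refine hinj fun z w hzw hL => d.injective (h.1 (Prod.ext hL ?_))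
      exact (congrFun hd z).trans (hzw.trans (congrFun hd w).symm)
    rw [h0, mul_zero]
    push Not at hinj
    obtain ⟨z, w, hcol, hL, hne⟩ := hinj
    refine Finset.sum_involution (fun c _ => Equiv.swap z w * c) (fun c _ => ?_) (fun c _ _ => ?_)
      (fun c _ => Finset.mem_univ _) fun c _ => ?_
    · have e : col ∘ ⇑(Equiv.swap z w * c) = col ∘ ⇑c := by
        rw [Equiv.Perm.coe_mul, ← Function.comp_assoc, comp_swap_eq hcol]
      rw [e, Equiv.Perm.coe_mul, ← Function.comp_assoc L, comp_swap_eq hL, sgn_mul, sgn_swap hne]
      split_ifs <;> ring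
    · intro e
      exact hne (Equiv.swap_eq_one_iff.1 (mul_eq_right.1 e))
    · rw [← mul_assoc, Equiv.swap_mul_self, one_mul]

end Vale.Agent.P197.Saxl
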