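import Vale.Agent.P197.Saxl.Defs
import Mathlib.Analysis.Complex.Basic
import Mathlib.LinearAlgebra.TensorProduct.Basic
import Mathlib.RepresentationTheory.Intertwining
import Mathlib.RepresentationTheory.Irreducible

/-!
# P197: the tensor square of the staircase module

A detected pair of polytabloids gives an injective intertwining map from an irreducible
representation into the tensor square.
-/

namespace Vale.Agent.P197.Saxl

open Finset
open scoped TensorProduct

/-- A translate of a polytabloid is the polytabloid of the translated tableau. -/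
theorem act_poly_translate {α β γ : Type} [Fintype α] [DecidableEq α] (g : Equiv.Perm α)
    (row : α → β) (col : α → γ) :
    act g (poly row col) = poly (row ∘ ⇑g⁻¹) (col ∘ ⇑g⁻¹) := by
  classical
  funext L
  simp only [act_apply, poly]
  refine Fintype.sum_equiv (MulAut.conj g).toEquiv _ _ fun c => ?_
  have e₁ : ((col ∘ ⇑g⁻¹) ∘ ⇑(g * c * g⁻¹) = col ∘ ⇑g⁻¹) ↔ col ∘ ⇑c = col := by
    constructor <;> intro h <;> funext z
    · simpa using congrFun h (g z)
    · simpa using congrFun h (g⁻¹ z)
  have e₂ : ((row ∘ ⇑g⁻¹) ∘ ⇑(g * c * g⁻¹) = L) ↔ row ∘ ⇑c = L ∘ ⇑g := by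
    constructor <;> intro h <;> funext z
    · simpa using congrFun h (g z)
    · simpa using congrFun h (g⁻¹ z)
  simp only [MulEquiv.toEquiv_eq_coe, EquivLike.coe_coe, MulAut.conj_apply, e₁, e₂,
    Equiv.Perm.sign_mul, Equiv.Perm.sign_inv]
  split
  · rw [mul_comm (Equiv.Perm.sign g) (Equiv.Perm.sign c), mul_assoc, Int.units_mul_self, mul_one]
  · rfl

/-- The Specht module of the staircase: the span of the translates of the polytabloid. -/
def staircaseSpecht (m : ℕ) : Submodule ℂ (Fn (Cell m) (Fin m)) :=
  Submodule.span ℂ (Set.range fun g => act g (eC m))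

theorem act_mem_staircaseSpecht {m : ℕ} (g : Equiv.Perm (Cell m)) {x : Fn (Cell m) (Fin m)}
    (hx : x ∈ staircaseSpecht m) : act g x ∈ staircaseSpecht m :=
  (Submodule.span_le.2 (by
    rintro _ ⟨h, rfl⟩
    exact Submodule.subset_span ⟨g * h, rfl⟩) :
      staircaseSpecht m ≤ (staircaseSpecht m).comap (act g)) hx

/-- The symmetric group acting on the Specht module of the staircase. -/
noncomputable def staircaseRep (m : ℕ) :
    Representation ℂ (Equiv.Perm (Cell m)) (staircaseSpecht m) where
  toFun g := (act g).restrict fun _ hx => act_mem_staircaseSpecht g hx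
  map_one' := LinearMap.ext fun _ => rfl
  map_mul' _ _ := LinearMap.ext fun _ => rfl

theorem eC_mem (m : ℕ) : eC m ∈ staircaseSpecht m := Submodule.subset_span ⟨1, rfl⟩

theorem eR_mem (m : ℕ) : eR m ∈ staircaseSpecht m := by
  let g : Equiv.Perm (Cell m) :=
    { toFun := fun z => ⟨(z.1.2, z.1.1), by have := z.2; simp only; omega⟩
      invFun := fun z => ⟨(z.1.2, z.1.1), by have := z.2; simp only; omega⟩
      left_inv := fun _ => rfl
      right_inv := fun _ => rfl }
  refine Submodule.subset_span ⟨g, ?_⟩
  show act g (poly cr cc) = poly cc cr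
  rw [act_poly_translate]
  rfl

theorem exists_injective_of_good (m : ℕ)
    (H : ∀ (W : Type) [AddCommGroup W] [Module ℂ W] (ρ : Representation ℂ (Equiv.Perm (Cell m)) W),
      Nontrivial W → Good m ρ)
    {V : Type} [AddCommGroup V] [Module ℂ V] (σ : Representation ℂ (Equiv.Perm (Cell m)) V)
    [σ.IsIrreducible] :
    ∃ f : σ.IntertwiningMap ((staircaseRep m).tprod (staircaseRep m)), Function.Injective f := by
  classical
  have hnt : Nontrivial V := by
    by_contra hV
    rw [not_nontrivial_iff_subsingleton] at hV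
    exact bot_ne_top (α := Subrepresentation σ)
      (Subrepresentation.toSubmodule_injective (Subsingleton.elim _ _))
  obtain ⟨Φ, hΦ, hne⟩ := H V σ hnt
  set τ := (staircaseRep m).tprod (staircaseRep m) with hτ
  let T : staircaseSpecht m ⊗[ℂ] staircaseSpecht m →ₗ[ℂ] V :=
    TensorProduct.lift (Φ.compl₁₂ (staircaseSpecht m).subtype (staircaseSpecht m).subtype)
  have hT : ∀ g t, T (τ g t) = σ g (T t) := fun g t => by
    induction t using TensorProduct.induction_on with
    | zero => simp
    | tmul x y =>
      simp only [hτ, Representation.tprod_apply, TensorProduct.map_tmul, T, TensorProduct.lift.tmul,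
        LinearMap.compl₁₂_apply, Submodule.subtype_apply]
      exact hΦ g x y
    | add x y hx hy => simp only [map_add, hx, hy]
  have hsurj : LinearMap.range T = ⊤ := by
    let K : Subrepresentation σ := ⟨LinearMap.range T, by
      rintro g _ ⟨t, rfl⟩
      exact ⟨τ g t, hT g t⟩⟩
    rcases eq_bot_or_eq_top K with hK | hK
    · refine absurd ?_ hne
      have h0 : LinearMap.range T = ⊥ := congrArg Subrepresentation.toSubmodule hK
      have h1 : T (⟨eR m, eR_mem m⟩ ⊗ₜ ⟨eC m, eC_mem m⟩) ∈ (⊥ : Submodule ℂ V) := by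
        rw [← h0]
        exact ⟨_, rfl⟩
      simpa [T] using h1
    · exact congrArg Subrepresentation.toSubmodule hK
  obtain ⟨s, hs⟩ := T.exists_rightInverse_of_surjective hsurj
  let F : V →ₗ[ℂ] staircaseSpecht m ⊗[ℂ] staircaseSpecht m :=
    (Fintype.card (Equiv.Perm (Cell m)) : ℂ)⁻¹ •
      ∑ g : Equiv.Perm (Cell m), ((τ g).comp s).comp (σ g⁻¹)
  have hF : ∀ u v, F (σ u v) = τ u (F v) := fun u v => by
    simp only [F, LinearMap.smul_apply, LinearMap.sum_apply, LinearMap.comp_apply, map_smul, map_sum]
    congr 1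
    refine Fintype.sum_equiv (Equiv.mulLeft u⁻¹) _ _ fun g => ?_
    simp only [Equiv.coe_mulLeft, mul_inv_rev, inv_inv, ← Module.End.mul_apply, ← map_mul,
      mul_inv_cancel_left]
  have hTF : ∀ v, T (F v) = v := fun v => by
    have hs' : ∀ x, T (s x) = x := fun x => LinearMap.congr_fun hs x
    simp only [F, LinearMap.smul_apply, LinearMap.sum_apply, LinearMap.comp_apply, map_smul, map_sum,
      hT, hs']
    simp only [← Module.End.mul_apply, ← map_mul, mul_inv_cancel, map_one, Module.End.one_apply,
      Finset.sum_const, Finset.card_univ]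
    rw [← Nat.cast_smul_eq_nsmul ℂ, smul_smul, inv_mul_cancel₀, one_smul]
    exact Nat.cast_ne_zero.2 Fintype.card_ne_zero
  refine ⟨LinearMap.intertwiningMap_of_isIntertwiningMap σ τ F hF, ?_⟩
  exact Function.LeftInverse.injective (g := T) hTF

end Vale.Agent.P197.Saxl
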